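import Vale.Agent.P290.H95.K3Fam
import Vale.Agent.P290.H416.K3FL
import Vale.Agent.P267.H622.Reg

/-!
# P290, Phase 2 (helper867): vanishing of the Kodaira-Spencer class

`SmLift F t v` : a smooth lift of the vector `v` to the total space along the fibre over `t`.
`infTrivial_of_exact` : if the `(1,1)`-part of the derivative of the two-form in the direction of the
lift is the `(1,1)`-part of an exact two-form without `(0,2)`-part, then the Kodaira-Spencer class of
the family at `t` in the direction `v` vanishes.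
-/

set_option linter.unusedVariables false
set_option linter.unusedSectionVars false

open scoped Manifold ContDiff ComplexConjugate Topology
open Set Filter

noncomputable section

namespace Vale.Agent.P290.H867

open Vale.Agent.P267 Vale.Agent.P290.All Vale.Agent.P290.H805 Vale.Agent.P290.H95
  Vale.Agent.P290.H445

/-! ### general surfaces -/

section gen

variable {X : Type*} [TopologicalSpace X] [ChartedSpace FL.C2 X] [IsManifold 𝓘(ℂ, FL.C2) ω X]
variable [T2Space X] [CompactSpace X] [SimplyConnectedSpace X]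

/-- on a compact simply connected surface the `(1,1)`-part of an exact two-form without `(0,2)`-part
is `∂̄` of a `(1,0)`-form -/
theorem exists_ten {A : FL.OneF X} (hA : A.Smooth) (h02 : A.d.f02 = 0) :
    ∃ c : X → Fin 2 → ℂ, FL.Reg10 ∞ c ∧ FL.dbar10 c = A.d.f11 := by
  obtain ⟨u, hu, h⟩ := H416.dbar_solve (a := A.f01) hA.s01 (fun x => congrFun h02 x)
  have h1 : FL.dbar0 0 u = A.f01 := by
    funext x i
    exact h x i
  have hr : FL.Reg10 ∞ (FL.del0 u) := H469.reg_del0 hu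
  have hr' : FL.Reg10 ∞ ((-1 : ℂ) • FL.del0 u) := by
    intro e he
    rw [contDiffOn_pi]
    intro i
    refine ((contDiffOn_pi.1 (hr e he) i).const_smul (-1 : ℂ)).congr fun z hz => ?_
    exact H469.loc10_smul e z (-1) _ i
  have hc : FL.Reg10 ∞ (A.f10 + (-1 : ℂ) • FL.del0 u) := by
    intro e he
    rw [contDiffOn_pi]
    intro i
    refine ((contDiffOn_pi.1 (hA.s10 e he) i).add (contDiffOn_pi.1 (hr' e he) i)).congr
      fun z hz => ?_
    exact H469.loc10_add e z _ _ i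
  refine ⟨A.f10 + (-1 : ℂ) • FL.del0 u, hc, ?_⟩
  funext x
  ext i j
  have h2 := congrFun (H469.del1_dbar0 hu) x
  have h3 : FL.del1 (FL.dbar0 0 u) x i j + FL.dbar10 (FL.del0 u) x i j = 0 := by
    have := congrFun (congrFun h2 i) j
    exact this
  have hd : ∀ c : X → Fin 2 → ℂ, FL.Reg10 ∞ c → ∀ i, DifferentiableAt ℝ
      (fun z => FL.loc10 (chartAt FL.C2 x) c z i) (chartAt FL.C2 x x) := by
    intro c hc i
    have h4 := (hc _ (chart_mem_atlas FL.C2 x)).contDiffAt ((chartAt FL.C2 x).open_target.mem_nhds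
      (mem_chart_target FL.C2 x))
    exact (contDiffAt_pi.1 h4 i).differentiableAt (by simp)
  have h5 : FL.dbar10 (A.f10 + (-1 : ℂ) • FL.del0 u) x i j =
      FL.dbar10 A.f10 x i j - FL.dbar10 (FL.del0 u) x i j := by
    simp only [FL.dbar10, Matrix.of_apply]
    have h6 : (fun z => FL.loc10 (chartAt FL.C2 x) (A.f10 + (-1 : ℂ) • FL.del0 u) z i) =
        fun z => FL.loc10 (chartAt FL.C2 x) A.f10 z i +
          (-1 : ℂ) • FL.loc10 (chartAt FL.C2 x) (FL.del0 u) z i := by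
      funext z
      rw [H469.loc10_add, H469.loc10_smul]
    have h7 : DifferentiableAt ℝ (fun z => (-1 : ℂ) • FL.loc10 (chartAt FL.C2 x) (FL.del0 u) z i)
        (chartAt FL.C2 x x) := (hd _ hr i).const_smul (-1 : ℂ)
    rw [h6, FL.dzb_add (hd _ hA.s10 i) h7, FL.dzb_const_smul (-1) (hd _ hr i)]
    rw [smul_eq_mul]
    ring
  rw [h5]
  change _ = FL.del1 A.f01 x i j + FL.dbar10 A.f10 x i j
  rw [← h1]
  linear_combination (-1 : ℂ) * h3

end gen

/-! ### families -/

section fam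

variable {V : Type} [NormedAddCommGroup V] [NormedSpace ℂ V] {D : Set V}
  {E : Type} [TopologicalSpace E]

/-- holomorphic transition maps -/
def HolTrn (F : Family D E) : Prop :=
  ∀ (x x' : E) (t : D) (w : C2), (t, w) ∈ (F.triv x).target →
    (F.triv x).symm (t, w) ∈ (F.triv x').source → AnalyticAt ℂ (trn F x x') (t, w)

/-- the point `w` of the chart `x` of the fibre over `t` lies in the chart `x'` -/
def Ov (F : Family D E) (x x' : E) (t : D) (w : C2) : Prop :=
  (t, w) ∈ (F.triv x).target ∧ (F.triv x).symm (t, w) ∈ (F.triv x').source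

theorem symm_trn {F : Family D E} {x x' : E} {t : D} {w : C2} (h : Ov F x x' t w) :
    (t, trn F x x' (t, w)) ∈ (F.triv x').target ∧
      (F.triv x').symm (t, trn F x x' (t, w)) = (F.triv x).symm (t, w) := by
  have h1 : F.triv x' ((F.triv x).symm (t, w)) = (t, trn F x x' (t, w)) := by
    rw [trn_apply]
    conv_lhs => rw [F.mk_eq x' h.2, F.p_symm x h.1]
  rw [← h1]
  exact ⟨(F.triv x').map_source h.2, (F.triv x').left_inv h.2⟩

theorem Ov.symm {F : Family D E} {x x' : E} {t : D} {w : C2} (h : Ov F x x' t w) :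
    Ov F x' x t (trn F x x' (t, w)) := by
  refine ⟨(symm_trn h).1, ?_⟩
  rw [(symm_trn h).2]
  exact (F.triv x).map_target h.1

theorem Ov.trans {F : Family D E} {x x' x'' : E} {t : D} {w : C2} (h : Ov F x x' t w)
    (h' : Ov F x x'' t w) : Ov F x' x'' t (trn F x x' (t, w)) := by
  refine ⟨(symm_trn h).1, ?_⟩
  rw [(symm_trn h).2]
  exact h'.2

theorem trn_trn {F : Family D E} {x x' : E} (x'' : E) {t : D} {w : C2} (h : Ov F x x' t w) :
    trn F x' x'' (t, trn F x x' (t, w)) = trn F x x'' (t, w) := by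
  rw [trn_apply, (symm_trn h).2, ← trn_apply]

theorem trn_self {F : Family D E} {x : E} {t : D} {w : C2} (h : (t, w) ∈ (F.triv x).target) :
    trn F x x (t, w) = w := by
  rw [trn_apply, (F.triv x).right_inv h]

/-- overlaps are open -/
theorem ov_eventually (hD : IsOpen D) {F : Family D E} {x x' : E} {t : D} {w : C2}
    (h : Ov F x x' t w) : ∀ᶠ q : V × C2 in 𝓝 ((t : V), w), ∃ hq : q.1 ∈ D,
      Ov F x x' ⟨q.1, hq⟩ q.2 := by
  have h1 : Topology.IsOpenEmbedding (Prod.map (Subtype.val : D → V) (id : C2 → C2)) :=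
    hD.isOpenEmbedding_subtypeVal.prodMap Topology.IsOpenEmbedding.id
  have h2 : IsOpen ((F.triv x).target ∩ (F.triv x).symm ⁻¹' (F.triv x').source) :=
    (F.triv x).symm.isOpen_inter_preimage (F.triv x').open_source
  have h3 := h1.isOpenMap _ h2
  have h4 : ((t : V), w) ∈ Prod.map (Subtype.val : D → V) (id : C2 → C2) ''
      ((F.triv x).target ∩ (F.triv x).symm ⁻¹' (F.triv x').source) := ⟨(t, w), h, rfl⟩
  filter_upwards [h3.mem_nhds h4] with q hq
  obtain ⟨⟨s, u⟩, hs, rfl⟩ := hq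
  exact ⟨s.2, hs⟩

theorem fderiv_trn_trn (hD : IsOpen D) {F : Family D E} (hF : HolTrn F) {x x' x'' : E} {t : D}
    {w : C2} (h : Ov F x x' t w) (h' : Ov F x x'' t w) (u : V × C2) :
    fderiv ℂ (trn F x x'') (t, w) u =
      fderiv ℂ (trn F x' x'') (t, trn F x x' (t, w)) (u.1, fderiv ℂ (trn F x x') (t, w) u) := by
  have h1 : trn F x x'' =ᶠ[𝓝 ((t : V), w)] fun q => trn F x' x'' (q.1, trn F x x' q) := by
    filter_upwards [ov_eventually hD h] with q hq
    obtain ⟨hq, h2⟩ := hq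
    exact (trn_trn x'' h2).symm
  have h3 : HasFDerivAt (fun q : V × C2 => (q.1, trn F x x' q))
      ((ContinuousLinearMap.fst ℂ V C2).prod (fderiv ℂ (trn F x x') (t, w))) ((t : V), w) :=
    hasFDerivAt_fst.prodMk (hF x x' t w h.1 h.2).differentiableAt.hasFDerivAt
  have h4 : HasFDerivAt (trn F x' x'') (fderiv ℂ (trn F x' x'') (t, trn F x x' (t, w)))
      ((fun q : V × C2 => (q.1, trn F x x' q)) ((t : V), w)) :=
    (hF x' x'' t _ (h.trans h').1 (h.trans h').2).differentiableAt.hasFDerivAt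
  have h5 := h4.comp ((t : V), w) h3
  rw [h1.fderiv_eq]
  have h6 : fderiv ℂ (fun q : V × C2 => trn F x' x'' (q.1, trn F x x' q)) ((t : V), w) = _ :=
    h5.fderiv
  rw [h6]
  rfl

theorem fderiv_trn_self (hD : IsOpen D) {F : Family D E} {x : E} {t : D}
    {w : C2} (h : (t, w) ∈ (F.triv x).target) (u : V × C2) :
    fderiv ℂ (trn F x x) (t, w) u = u.2 := by
  have h0 : Ov F x x t w := ⟨h, (F.triv x).map_target h⟩
  have h1 : trn F x x =ᶠ[𝓝 ((t : V), w)] Prod.snd := by
    filter_upwards [ov_eventually hD h0] with q hq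
    obtain ⟨hq, h2⟩ := hq
    exact trn_self h2.1
  rw [h1.fderiv_eq, fderiv_snd]
  rfl

/-- the derivative along the fibre -/
theorem fderiv_fib {F : Family D E} (hF : HolTrn F) {x x' : E} {t : D}
    {w : C2} (h : Ov F x x' t w) (u : C2) :
    fderiv ℂ (fun w : C2 => trn F x x' (t, w)) w u = fderiv ℂ (trn F x x') (t, w) (0, u) := by
  have h1 : HasFDerivAt (fun w : C2 => ((t : V), w)) (ContinuousLinearMap.inr ℂ V C2) w :=
    hasFDerivAt_prodMk_right (t : V) w
  have h2 : HasFDerivAt (trn F x x') (fderiv ℂ (trn F x x') (t, w))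
      ((fun w : C2 => ((t : V), w)) w) :=
    (hF x x' t w h.1 h.2).differentiableAt.hasFDerivAt
  have h3 := h2.comp w h1
  have h4 : fderiv ℂ (fun w : C2 => trn F x x' (t, w)) w = _ := h3.fderiv
  rw [h4]
  rfl

/-- a holomorphic lift given in the charts at the points of the fibre gives a holomorphic lift -/
theorem infTrivial_of_fib (hD : IsOpen D) {F : Family D E} (hF : HolTrn F) {t : D} {v : V}
    (θ : Fib F t → C2 → C2) (hθ : ∀ x w, (t, w) ∈ (F.triv x.1).target → AnalyticAt ℂ (θ x) w)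
    (law : ∀ (x x' : Fib F t) (w : C2), Ov F x.1 x'.1 t w →
      fderiv ℂ (trn F x.1 x'.1) (t, w) (v, θ x w) = θ x' (trn F x.1 x'.1 (t, w))) :
    InfTrivial F t v := by
  classical
  -- the point of the fibre
  let P : ∀ (x : E) (w : C2), (t, w) ∈ (F.triv x).target → Fib F t := fun x w h =>
    ⟨(F.triv x).symm (t, w), F.p_symm x h⟩
  have hP : ∀ (x : E) (w : C2) (h : (t, w) ∈ (F.triv x).target), Ov F x (P x w h).1 t w :=
    fun x w h => ⟨h, F.mem _⟩
  let Θ : E → C2 → C2 := fun x w => if h : (t, w) ∈ (F.triv x).target then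
    fderiv ℂ (trn F (P x w h).1 x) (t, trn F x (P x w h).1 (t, w))
      (v, θ (P x w h) (trn F x (P x w h).1 (t, w))) else 0
  -- the value computed from any chart of the fibre
  have key : ∀ (x : E) (w : C2) (y : Fib F t), Ov F x y.1 t w →
      Θ x w = fderiv ℂ (trn F y.1 x) (t, trn F x y.1 (t, w)) (v, θ y (trn F x y.1 (t, w))) := by
    intro x w y h
    have h1 : Θ x w = fderiv ℂ (trn F (P x w h.1).1 x) (t, trn F x (P x w h.1).1 (t, w))
      (v, θ (P x w h.1) (trn F x (P x w h.1).1 (t, w))) := by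
      simp only [Θ]
      rw [dif_pos h.1]
    rw [h1]
    set y' := P x w h.1 with hy'
    have h2 : Ov F x y'.1 t w := hP x w h.1
    have h3 : Ov F y.1 y'.1 t (trn F x y.1 (t, w)) := h.trans h2
    have h4 := law y y' _ h3
    have h5 : trn F y.1 y'.1 (t, trn F x y.1 (t, w)) = trn F x y'.1 (t, w) := trn_trn _ h
    rw [h5] at h4
    rw [← h4]
    have h6 := fderiv_trn_trn hD hF h3 h.symm (v, θ y (trn F x y.1 (t, w)))
    rw [h5] at h6
    exact h6.symm
  refine ⟨Θ, ?_, ?_⟩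
  · intro x w hw
    set y := P x w hw with hy
    have h1 : Ov F x y.1 t w := hP x w hw
    have h2 : ∀ᶠ w' in 𝓝 w, Ov F x y.1 t w' := by
      have h3 : IsOpen ((F.triv x).target ∩ (F.triv x).symm ⁻¹' (F.triv y.1).source) :=
        (F.triv x).symm.isOpen_inter_preimage (F.triv y.1).open_source
      exact (h3.preimage (Continuous.prodMk_right t)).mem_nhds h1
    have h3 : Θ x =ᶠ[𝓝 w] fun w => fderiv ℂ (trn F y.1 x) (t, trn F x y.1 (t, w))
        (v, θ y (trn F x y.1 (t, w))) := by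
      filter_upwards [h2] with w' hw'
      exact key x w' y hw'
    refine AnalyticAt.congr ?_ h3.symm
    have h4 : AnalyticAt ℂ (fun w : C2 => trn F x y.1 ((t : V), w)) w :=
      AnalyticAt.fun_comp (f := fun w : C2 => ((t : V), w)) (hF x y.1 t w h1.1 h1.2)
        (analyticAt_const.prod analyticAt_id)
    have h5 : AnalyticAt ℂ (fderiv ℂ (trn F y.1 x)) ((t : V), trn F x y.1 (t, w)) :=
      (hF y.1 x t _ h1.symm.1 h1.symm.2).fderiv
    have h6 : AnalyticAt ℂ (fun w : C2 => fderiv ℂ (trn F y.1 x) ((t : V), trn F x y.1 (t, w))) w :=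
      AnalyticAt.fun_comp (f := fun w : C2 => ((t : V), trn F x y.1 (t, w))) h5
        (analyticAt_const.prod h4)
    have h7 : AnalyticAt ℂ (θ y) (trn F x y.1 (t, w)) := hθ y _ h1.symm.1
    have h8 : AnalyticAt ℂ (fun w : C2 => (v, θ y (trn F x y.1 (t, w)))) w :=
      analyticAt_const.prod (AnalyticAt.fun_comp (f := fun w : C2 => trn F x y.1 (t, w)) h7 h4)
    have h9 := (ContinuousLinearMap.id ℂ (V × C2 →L[ℂ] C2)).analyticAt_bilinear
      (fderiv ℂ (trn F y.1 x) ((t : V), trn F x y.1 (t, w)), (v, θ y (trn F x y.1 (t, w))))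
    exact AnalyticAt.fun_comp (f := fun w : C2 => (fderiv ℂ (trn F y.1 x)
      ((t : V), trn F x y.1 (t, w)), (v, θ y (trn F x y.1 (t, w))))) h9 (h6.prod h8)
  · intro x x' w h h'
    have h0 : Ov F x x' t w := ⟨h, h'⟩
    have h1 : Ov F x (P x w h).1 t w := hP x w h
    have h2 : Ov F x' (P x w h).1 t (trn F x x' (t, w)) := h0.trans h1
    rw [key x w _ h1, key x' _ _ h2, trn_trn _ h0]
    have h3 := fderiv_trn_trn hD hF h1.symm (h1.trans h0) (v, θ (P x w h) (trn F x (P x w h).1 (t, w)))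
    rw [trn_trn _ h1, trn_self h0.1] at h3
    exact h3.symm

/-- a smooth lift of the vector `v` to the total space along the fibre over `t`, in the charts of
the fibre -/
structure SmLift (F : Family D E) (t : D) (v : V) where
  k : Fib F t → FL.C2 → FL.C2
  smooth : ∀ x z, z ∈ (toFL (fibChart F t x)).target → ContDiffAt ℝ ∞ (k x) z
  law : ∀ (x x' : Fib F t) (w : C2), Ov F x.1 x'.1 t w →
    fderiv ℂ (trn F x.1 x'.1) (t, w) (v, φ.symm (k x (φ w))) =
      φ.symm (k x' (φ (trn F x.1 x'.1 (t, w))))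

end fam

section main

variable {V : Type} [NormedAddCommGroup V] [NormedSpace ℂ V] {D : Set V}
  {E : Type} [TopologicalSpace E] [T2Space E]

/-- the chart of the fibre at `x`, with values in `Fin 2 → ℂ` -/
abbrev fch (𝓕 : K3Family V D E) (t : D) (x : Fib 𝓕.F t) : FL.Ch (𝓕.k3 t).X :=
  toFL (fibChart 𝓕.F t x)

theorem fch_mem (𝓕 : K3Family V D E) (t : D) (x : Fib 𝓕.F t) :
    fch 𝓕 t x ∈ atlas FL.C2 (𝓕.k3 t).X :=
  mem_atlas_toFL (𝓕.k3 t) (mem_range_self x)

theorem fib_ov {F : Family D E} {t : D} {x x' : Fib F t} {w : C2} (h : Ov F x.1 x'.1 t w) :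
    w ∈ (fibChart F t x).target ∧ (fibChart F t x).symm w ∈ (fibChart F t x').source ∧
      fibChart F t x' ((fibChart F t x).symm w) = trn F x.1 x'.1 (t, w) := by
  refine ⟨h.1, ?_, ?_⟩
  · change ((fibChart F t x).symm w).1 ∈ (F.triv x'.1).source
    rw [fibChart_symm_val F t x h.1]
    exact h.2
  · rw [fibChart_apply, fibChart_symm_val F t x h.1, trn_apply]

theorem ov_fib {F : Family D E} {t : D} {x x' : Fib F t} {w : C2}
    (h : w ∈ (fibChart F t x).target) (h' : (fibChart F t x).symm w ∈ (fibChart F t x').source) :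
    Ov F x.1 x'.1 t w := by
  refine ⟨h, ?_⟩
  rw [← fibChart_symm_val F t x h]
  exact h'

theorem ov_near {F : Family D E} {x x' : E} {t : D} {w : C2} (h : Ov F x x' t w) :
    ∀ᶠ w' in 𝓝 w, Ov F x x' t w' := by
  have h3 : IsOpen ((F.triv x).target ∩ (F.triv x).symm ⁻¹' (F.triv x').source) :=
    (F.triv x).symm.isOpen_inter_preimage (F.triv x').open_source
  exact (h3.preimage (Continuous.prodMk_right t)).mem_nhds h

theorem fch_ov {𝓕 : K3Family V D E} {t : D} {x x' : Fib 𝓕.F t} {w : C2}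
    (h : Ov 𝓕.F x.1 x'.1 t w) :
    φ w ∈ (fch 𝓕 t x).target ∧ (fch 𝓕 t x).symm (φ w) ∈ (fch 𝓕 t x').source ∧
      fch 𝓕 t x' ((fch 𝓕 t x).symm (φ w)) = φ (trn 𝓕.F x.1 x'.1 (t, w)) := by
  obtain ⟨h1, h2, h3⟩ := fib_ov h
  have hw : φ.symm (φ w) = w := φ.symm_apply_apply w
  refine ⟨?_, ?_, ?_⟩
  · change φ.symm (φ w) ∈ (fibChart 𝓕.F t x).target
    rw [hw]
    exact h1
  · change (fibChart 𝓕.F t x).symm (φ.symm (φ w)) ∈ (fibChart 𝓕.F t x').source
    rw [hw]
    exact h2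
  · change φ (fibChart 𝓕.F t x' ((fibChart 𝓕.F t x).symm (φ.symm (φ w)))) = _
    rw [hw, h3]

/-- the transition map of the fibre in the `FL` charts, and its Jacobian matrix -/
theorem jacM_trn (𝓕 : K3Family V D E) {t : D} {x x' : Fib 𝓕.F t} {w : C2}
    (h : Ov 𝓕.F x.1 x'.1 t w) (u : FL.C2) :
    (FL.jacM (fch 𝓕 t x) (fch 𝓕 t x') ((fch 𝓕 t x).symm (φ w))).mulVec u =
      φ (fderiv ℂ (trn 𝓕.F x.1 x'.1) (t, w) (0, φ.symm u)) := by
  obtain ⟨hz, hp, h3⟩ := fch_ov h
  rw [FL.jacM_mulVec (fch_mem 𝓕 t x) (fch_mem 𝓕 t x') ((fch 𝓕 t x).map_target hz) hp,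
    (fch 𝓕 t x).right_inv hz]
  have h4 : (fun z => fch 𝓕 t x' ((fch 𝓕 t x).symm z)) =ᶠ[𝓝 (φ w)]
      fun z => φ (trn 𝓕.F x.1 x'.1 (t, φ.symm z)) := by
    have h5 : Tendsto (fun z : FL.C2 => φ.symm z) (𝓝 (φ w)) (𝓝 w) := by
      have := φ.symm.continuous.tendsto (φ w)
      rwa [ContinuousLinearEquiv.symm_apply_apply] at this
    filter_upwards [h5.eventually (ov_near h)] with z hz
    have h6 := (fch_ov hz).2.2
    rwa [ContinuousLinearEquiv.apply_symm_apply] at h6
  rw [h4.fderiv_eq]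
  have h6 : HasFDerivAt (fun w : C2 => trn 𝓕.F x.1 x'.1 (t, w))
      (fderiv ℂ (fun w : C2 => trn 𝓕.F x.1 x'.1 (t, w)) w) (φ.symm (φ w)) := by
    rw [ContinuousLinearEquiv.symm_apply_apply]
    refine DifferentiableAt.hasFDerivAt ?_
    have h7 : AnalyticAt ℂ (fun w : C2 => trn 𝓕.F x.1 x'.1 ((t : V), w)) w :=
      AnalyticAt.fun_comp (f := fun w : C2 => ((t : V), w)) (𝓕.hol x.1 x'.1 t w h.1 h.2)
        (analyticAt_const.prod analyticAt_id)
    exact h7.differentiableAt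
  have h8 := h6.comp (φ w) (φ.symm : FL.C2 →L[ℂ] ℂ × ℂ).hasFDerivAt
  have h9 := (φ : ℂ × ℂ →L[ℂ] FL.C2).hasFDerivAt.comp (φ w) h8
  have h10 : fderiv ℂ (fun z => φ (trn 𝓕.F x.1 x'.1 (t, φ.symm z))) (φ w) = _ := h9.fderiv
  rw [h10, ← fderiv_fib 𝓕.hol h]
  rfl

theorem det_aux (X : All.K3) {e e' : OpenPartialHomeomorph X.X (ℂ × ℂ)}
    (he : e ∈ atlas (ℂ × ℂ) X.X) (he' : e' ∈ atlas (ℂ × ℂ) X.X) {w : ℂ × ℂ} (h : w ∈ e.target)
    (h' : e.symm w ∈ e'.source) {g : ℂ × ℂ → ℂ × ℂ} (hg : ∀ᶠ u in 𝓝 w, e' (e.symm u) = g u) :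
    (FL.jacM (toFL e) (toFL e') ((toFL e).symm (φ w))).det = (fderiv ℂ g w).det := by
  have h5 : (toFL e).symm (φ w) = e.symm w := by
    rw [toFL_symm_apply, φ.symm_apply_apply]
  rw [h5, jacM_det X he he' (e.map_target h) h', e.right_inv h, Filter.EventuallyEq.fderiv_eq hg]

theorem jacM_det_trn (𝓕 : K3Family V D E) {t : D} {x x' : Fib 𝓕.F t} {w : C2}
    (h : Ov 𝓕.F x.1 x'.1 t w) :
    (FL.jacM (fch 𝓕 t x) (fch 𝓕 t x') ((fch 𝓕 t x).symm (φ w))).det =
      (fderiv ℂ (fun u : C2 => trn 𝓕.F x.1 x'.1 (t, u)) w).det := by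
  obtain ⟨h1, h2, h3⟩ := fib_ov h
  refine det_aux (𝓕.k3 t) (e := fibChart 𝓕.F t x) (e' := fibChart 𝓕.F t x')
    (mem_range_self x) (mem_range_self x') h1 h2 ?_
  filter_upwards [ov_near h] with u hu
  exact (fib_ov hu).2.2

/-- **Vanishing of the Kodaira-Spencer class.** -/
theorem infTrivial_of_exact (hD : IsOpen D) (𝓕 : K3Family V D E) (t : D) (v : V)
    (K : SmLift 𝓕.F t v) (A : FL.OneF (𝓕.k3 t).X) (hA : A.Smooth) (h02 : A.d.f02 = 0)
    (h11 : ∀ (x : Fib 𝓕.F t) (z : FL.C2), z ∈ (fch 𝓕 t x).target → ∀ i j,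
      FL.loc11 (fch 𝓕 t x) A.d.f11 z i j = 𝓕.vol x.1 (t, φ.symm z) *
        ((if i = 0 then FL.dzb j (fun z => K.k x z 1) z else 0) -
          (if i = 1 then FL.dzb j (fun z => K.k x z 0) z else 0))) :
    InfTrivial 𝓕.F t v := by
  obtain ⟨c, hc, hc'⟩ := exists_ten hA h02
  set C : Fib 𝓕.F t → FL.C2 → Fin 2 → ℂ := fun x z i => FL.loc10 (fch 𝓕 t x) c z i with hC
  set m : Fib 𝓕.F t → FL.C2 → ℂ := fun x z => 𝓕.vol x.1 (t, φ.symm z) with hm
  -- regularity
  have hm1 : ∀ x z, z ∈ (fch 𝓕 t x).target → m x z ≠ 0 ∧ DifferentiableAt ℂ (m x) z := by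
    intro x z hz
    have h1 := 𝓕.vol_hol x.1 t (φ.symm z) hz
    refine ⟨h1.2, ?_⟩
    have h2 : AnalyticAt ℂ (fun z : FL.C2 => 𝓕.vol x.1 ((t : V), φ.symm z)) z :=
      AnalyticAt.fun_comp (f := fun z : FL.C2 => ((t : V), φ.symm z)) h1.1
        (analyticAt_const.prod (φ.symm.toContinuousLinearMap.analyticAt z))
    exact h2.differentiableAt
  have hC1 : ∀ x z i, z ∈ (fch 𝓕 t x).target → DifferentiableAt ℝ (fun z => C x z i) z := by
    intro x z i hz
    have h1 := (hc _ (fch_mem 𝓕 t x)).contDiffAt ((fch 𝓕 t x).open_target.mem_nhds hz)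
    exact (contDiffAt_pi.1 h1 i).differentiableAt (by simp)
  have hk1 : ∀ x z i, z ∈ (fch 𝓕 t x).target → DifferentiableAt ℝ (fun z => K.k x z i) z := by
    intro x z i hz
    exact (contDiffAt_pi.1 (K.smooth x z hz) i).differentiableAt (by simp)
  have hC2 : ∀ x z i j, z ∈ (fch 𝓕 t x).target → FL.dzb j (fun z => C x z i) z =
      - (m x z * ((if i = 0 then FL.dzb j (fun z => K.k x z 1) z else 0) -
          (if i = 1 then FL.dzb j (fun z => K.k x z 0) z else 0))) := by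
    intro x z i j hz
    rw [← h11 x z hz i j, ← hc', H469.dbar10_law (H469.r10mono hc (by simp)) (fch_mem 𝓕 t x) hz,
      neg_neg]
  -- the vertical vector field
  let Y : Fib 𝓕.F t → FL.C2 → FL.C2 := fun x z => ![C x z 1 * (m x z)⁻¹, - (C x z 0 * (m x z)⁻¹)]
  have hY : ∀ x x' w, Ov 𝓕.F x.1 x'.1 t w →
      fderiv ℂ (trn 𝓕.F x.1 x'.1) (t, w) (0, φ.symm (Y x (φ w))) =
        φ.symm (Y x' (φ (trn 𝓕.F x.1 x'.1 (t, w)))) := by
    intro x x' w h
    obtain ⟨hz, hp, h3⟩ := fch_ov h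
    have hJ := jacM_trn 𝓕 h (Y x (φ w))
    have hdet := jacM_det_trn 𝓕 h
    set p := (fch 𝓕 t x).symm (φ w) with hpd
    set J := FL.jacM (fch 𝓕 t x) (fch 𝓕 t x') p with hJd
    have hvol := 𝓕.vol_law x.1 x'.1 t w h.1 h.2
    rw [← hdet] at hvol
    have hm0 : m x (φ w) = m x' (φ (trn 𝓕.F x.1 x'.1 (t, w))) * J.det := by
      simp only [hm]
      rw [φ.symm_apply_apply, φ.symm_apply_apply]
      exact hvol
    have hz' : φ (trn 𝓕.F x.1 x'.1 (t, w)) ∈ (fch 𝓕 t x').target := by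
      rw [← h3]
      exact (fch 𝓕 t x').map_source hp
    have hm2 := (hm1 x _ hz).1
    have hm3 := (hm1 x' _ hz').1
    have hJ0 : J.det ≠ 0 := by
      intro h0
      rw [hm0, h0, mul_zero] at hm2
      exact hm2 rfl
    have hcl : ∀ i, C x (φ w) i = ∑ q, J q i * C x' (φ (trn 𝓕.F x.1 x'.1 (t, w))) q := by
      intro i
      have h4 := XT.loc10_change' (fch_mem 𝓕 t x) (fch_mem 𝓕 t x') ((fch 𝓕 t x).map_target hz)
        hp c i
      rw [(fch 𝓕 t x).right_inv hz, h3] at h4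
      exact h4
    have hY' : J.mulVec (Y x (φ w)) = Y x' (φ (trn 𝓕.F x.1 x'.1 (t, w))) := by
      funext a
      rw [Matrix.det_fin_two] at hm0 hJ0
      have h0 := hcl 0
      have h1 := hcl 1
      rw [Fin.sum_univ_two] at h0 h1
      rw [Matrix.mulVec, dotProduct, Fin.sum_univ_two]
      fin_cases a
      · simp only [Y, Matrix.cons_val_zero, Matrix.cons_val_one, Fin.zero_eta]
        rw [h0, h1, hm0, mul_inv]
        linear_combination (C x' (φ (trn 𝓕.F x.1 x'.1 (t, w))) 1 *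
          (m x' (φ (trn 𝓕.F x.1 x'.1 (t, w))))⁻¹) * mul_inv_cancel₀ hJ0
      · simp only [Y, Matrix.cons_val_zero, Matrix.cons_val_one, Fin.mk_one]
        rw [h0, h1, hm0, mul_inv]
        linear_combination (- C x' (φ (trn 𝓕.F x.1 x'.1 (t, w))) 0 *
          (m x' (φ (trn 𝓕.F x.1 x'.1 (t, w))))⁻¹) * mul_inv_cancel₀ hJ0
    rw [ContinuousLinearEquiv.eq_symm_apply, ← hJ, hY']
  refine infTrivial_of_fib hD 𝓕.hol (fun x w => φ.symm (K.k x (φ w) - Y x (φ w))) ?_ ?_
  · intro x w hw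
    have hz : φ w ∈ (fch 𝓕 t x).target := by
      change φ.symm (φ w) ∈ (fibChart 𝓕.F t x).target
      rw [φ.symm_apply_apply]
      exact hw
    have hd : DifferentiableOn ℂ (fun z => K.k x z - Y x z) (fch 𝓕 t x).target := by
      intro z hz
      refine DifferentiableAt.differentiableWithinAt ?_
      rw [differentiableAt_pi]
      obtain ⟨hm0, hmd⟩ := hm1 x z hz
      have hmi : DifferentiableAt ℂ (fun z => (m x z)⁻¹) z := hmd.inv hm0
      have hmr : DifferentiableAt ℝ (fun z => (m x z)⁻¹) z := hmi.restrictScalars ℝ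
      intro a
      fin_cases a
      · have h1 : DifferentiableAt ℝ (fun z => C x z 1 * (m x z)⁻¹) z := (hC1 x z 1 hz).mul hmr
        refine (FL.differentiableAt_complex_iff ((hk1 x z 0 hz).sub h1)).2 fun j => ?_
        have h2 : (fun z => (K.k x z - Y x z) 0) = fun z => K.k x z 0 - C x z 1 * (m x z)⁻¹ := rfl
        change FL.dzb j (fun z => K.k x z 0 - C x z 1 * (m x z)⁻¹) z = 0
        rw [FL.dzb_sub (hk1 x z 0 hz) h1, FL.dzb_mul (hC1 x z 1 hz) hmr, FL.dzb_of_hol hmi,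
          hC2 x z 1 j hz, if_neg one_ne_zero, if_pos rfl]
        linear_combination (- FL.dzb j (fun z => K.k x z 0) z) * mul_inv_cancel₀ hm0
      · have h1 : DifferentiableAt ℝ (fun z => C x z 0 * (m x z)⁻¹) z := (hC1 x z 0 hz).mul hmr
        have h2 : (fun z => (K.k x z - Y x z) 1) = fun z => K.k x z 1 + C x z 0 * (m x z)⁻¹ := by
          funext z
          exact sub_neg_eq_add _ _
        refine (FL.differentiableAt_complex_iff (f := fun z => (K.k x z - Y x z) 1) ?_).2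
          fun j => ?_
        · rw [h2]
          exact (hk1 x z 1 hz).add h1
        · rw [h2, FL.dzb_add (hk1 x z 1 hz) h1, FL.dzb_mul (hC1 x z 0 hz) hmr, FL.dzb_of_hol hmi,
            hC2 x z 0 j hz, if_pos rfl, if_neg zero_ne_one]
          linear_combination (- FL.dzb j (fun z => K.k x z 1) z) * mul_inv_cancel₀ hm0
    have ha : AnalyticAt ℂ (fun z => K.k x z - Y x z) (φ w) :=
      P268.analyticAt_of_differentiableOn (fch 𝓕 t x).open_target hd hz
    have hb : AnalyticAt ℂ (fun w => K.k x (φ w) - Y x (φ w)) w :=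
      AnalyticAt.fun_comp (f := fun w => φ w) ha (φ.toContinuousLinearMap.analyticAt w)
    exact (φ.symm.toContinuousLinearMap.analyticAt _).comp hb
  · intro x x' w h
    have h1 : (v, φ.symm (K.k x (φ w) - Y x (φ w))) =
        (v, φ.symm (K.k x (φ w))) - ((0 : V), φ.symm (Y x (φ w))) := by
      rw [map_sub]
      exact Prod.ext (sub_zero v).symm rfl
    rw [h1, map_sub, K.law x x' w h, hY x x' w h, map_sub]

end main

end Vale.Agent.P290.H867
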