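import Vale.Agent.P290.H722.SmFam
import Vale.Agent.P290.H722.SmTrivDef
import Vale.Agent.P290.H867.KS
import Vale.Agent.P290.H867.OmB

/-!
# P290, Phase 2 (helper867): the derivative of the two-forms of a smooth trivialisation

`dh f t u` : the `(1,0)`-part of the derivative of `f` at `t` in the direction `u`.
-/

set_option linter.unusedVariables false
set_option linter.unusedSectionVars false

open scoped Manifold ContDiff ComplexConjugate Topology
open Set Filter

noncomputable section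

namespace Vale.Agent.P290.H867

open Vale.Agent.P267 Vale.Agent.P290.All Vale.Agent.P290.H805 Vale.Agent.P290.H95
  Vale.Agent.P290.H445 Vale.Agent.P290.H686 Vale.Agent.P290.H722

/-! ### `(1,0)`-derivatives in the parameter -/

section dh

variable {V : Type*} [NormedAddCommGroup V] [NormedSpace ℂ V]
variable {W : Type*} [NormedAddCommGroup W] [NormedSpace ℂ W]

/-- the `(1,0)`-part of the derivative at `t` in the direction `u` -/
def dh (f : V → W) (t u : V) : W :=
  (1 / 2 : ℂ) • (fderiv ℝ f t u - Complex.I • fderiv ℝ f t (Complex.I • u))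

theorem dh_congr {f g : V → W} {t : V} (h : f =ᶠ[𝓝 t] g) (u : V) : dh f t u = dh g t u := by
  rw [dh, dh, h.fderiv_eq]

theorem dh_const (c : W) (t u : V) : dh (fun _ : V => c) t u = 0 := by
  simp [dh]

/-- the `(1,0)`-derivative of a product -/
theorem dh_mul {f g : V → ℂ} {t : V} (hf : DifferentiableAt ℝ f t) (hg : DifferentiableAt ℝ g t)
    (u : V) : dh (fun s => f s * g s) t u = dh f t u * g t + f t * dh g t u := by
  have h : fderiv ℝ (fun s => f s * g s) t = f t • fderiv ℝ g t + g t • fderiv ℝ f t :=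
    (hf.hasFDerivAt.mul hg.hasFDerivAt).fderiv
  simp only [dh, h, _root_.add_apply, _root_.smul_apply, smul_eq_mul]
  ring

theorem dh_sub {f g : V → W} {t : V} (hf : DifferentiableAt ℝ f t) (hg : DifferentiableAt ℝ g t)
    (u : V) : dh (fun s => f s - g s) t u = dh f t u - dh g t u := by
  have h : fderiv ℝ (fun s => f s - g s) t = fderiv ℝ f t - fderiv ℝ g t :=
    (hf.hasFDerivAt.sub hg.hasFDerivAt).fderiv
  simp only [dh, h, _root_.sub_apply]
  module

variable {W' : Type*} [NormedAddCommGroup W'] [NormedSpace ℂ W']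

/-- the `(1,0)`-derivative of the composition with a linear map -/
theorem dh_clm (L : W →L[ℂ] W') {f : V → W} {t : V} (hf : DifferentiableAt ℝ f t) (u : V) :
    dh (fun s => L (f s)) t u = L (dh f t u) := by
  have h : fderiv ℝ (fun s => L (f s)) t = (L.restrictScalars ℝ).comp (fderiv ℝ f t) :=
    ((L.restrictScalars ℝ).hasFDerivAt.comp t hf.hasFDerivAt).fderiv
  simp only [dh, h]
  simp only [ContinuousLinearMap.comp_apply, ContinuousLinearMap.coe_restrictScalars', map_smul,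
    map_sub]

/-- chain rule with a holomorphic function of the parameter and the value -/
theorem dh_comp {G : V × W → W'} {f : V → W} {t : V} (hf : DifferentiableAt ℝ f t)
    (hG : DifferentiableAt ℂ G (t, f t)) (u : V) :
    dh (fun s => G (s, f s)) t u = fderiv ℂ G (t, f t) (u, dh f t u) := by
  have h1 : HasFDerivAt (fun s => (s, f s)) ((ContinuousLinearMap.id ℝ V).prod (fderiv ℝ f t)) t :=
    (hasFDerivAt_id t).prodMk hf.hasFDerivAt
  have h2 : HasFDerivAt G ((fderiv ℂ G (t, f t)).restrictScalars ℝ) ((fun s => (s, f s)) t) :=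
    hG.hasFDerivAt.restrictScalars ℝ
  have h3 := h2.comp t h1
  have h4 : fderiv ℝ (fun s => G (s, f s)) t = _ := h3.fderiv
  simp only [dh, h4]
  simp only [ContinuousLinearMap.comp_apply, ContinuousLinearMap.coe_restrictScalars',
    ContinuousLinearMap.prod_apply, ContinuousLinearMap.id_apply]
  rw [← map_smul, ← map_sub, ← map_smul]
  congr 1
  refine Prod.ext ?_ ?_
  · change (1 / 2 : ℂ) • (u - Complex.I • Complex.I • u) = u
    rw [smul_smul, Complex.I_mul_I]
    module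
  · rfl

theorem dh_area {a b : V → ℂ × ℂ} {μ : V → ℂ} {t : V} (hμ : DifferentiableAt ℝ μ t)
    (ha : DifferentiableAt ℝ a t) (hb : DifferentiableAt ℝ b t) (u : V) :
    dh (fun s => μ s * area (a s) (b s)) t u = dh μ t u * area (a t) (b t) +
      μ t * (area (dh a t u) (b t) + area (a t) (dh b t u)) := by
  have ha1 : DifferentiableAt ℝ (fun s => (a s).1) t := ha.fst
  have ha2 : DifferentiableAt ℝ (fun s => (a s).2) t := ha.snd
  have hb1 : DifferentiableAt ℝ (fun s => (b s).1) t := hb.fst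
  have hb2 : DifferentiableAt ℝ (fun s => (b s).2) t := hb.snd
  have e1 : ∀ {c : V → ℂ × ℂ}, DifferentiableAt ℝ c t →
      dh (fun s => (c s).1) t u = (dh c t u).1 := fun hc =>
    dh_clm (ContinuousLinearMap.fst ℂ ℂ ℂ) hc u
  have e2 : ∀ {c : V → ℂ × ℂ}, DifferentiableAt ℝ c t →
      dh (fun s => (c s).2) t u = (dh c t u).2 := fun hc =>
    dh_clm (ContinuousLinearMap.snd ℂ ℂ ℂ) hc u
  have h1 : DifferentiableAt ℝ (fun s => (a s).1 * (b s).2) t := ha1.mul hb2
  have h2 : DifferentiableAt ℝ (fun s => (a s).2 * (b s).1) t := ha2.mul hb1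
  have h3 : DifferentiableAt ℝ (fun s => (a s).1 * (b s).2 - (a s).2 * (b s).1) t := h1.sub h2
  simp only [area]
  rw [dh_mul hμ h3, dh_sub h1 h2, dh_mul ha1 hb2, dh_mul ha2 hb1, e1 ha, e1 hb, e2 ha, e2 hb]
  ring

end dh

/-! ### types of the derivative -/

section types

theorem area_add_right' (a b c : ℂ × ℂ) : area a (b + c) = area a b + area a c := by
  simp only [area, Prod.fst_add, Prod.snd_add]
  ring

theorem area_smul_right' (s : ℂ) (a b : ℂ × ℂ) : area a (s • b) = s * area a b := by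
  simp only [area, Prod.smul_fst, Prod.smul_snd, smul_eq_mul]
  ring

theorem area_smul_left' (s : ℂ) (a b : ℂ × ℂ) : area (s • a) b = s * area a b := by
  simp only [area, Prod.smul_fst, Prod.smul_snd, smul_eq_mul]
  ring

theorem φs_single_I (i : Fin 2) :
    φ.symm (Pi.single i Complex.I) = Complex.I • φ.symm (Pi.single i (1 : ℂ)) := by
  rw [← map_smul, ← FL.single_I]

theorem k01_hol (j : Fin 2) (a : ℂ × ℂ) : k01 j (fun w => area a (φ.symm w)) = 0 := by
  rw [k01, φs_single_I, area_smul_right']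
  linear_combination (1 / 2 * area a (φ.symm (Pi.single j 1))) * Complex.I_mul_I

theorem k01_hol' (j : Fin 2) (a : ℂ × ℂ) : k01 j (fun w => area (φ.symm w) a) = 0 := by
  rw [k01, φs_single_I, area_smul_left']
  linear_combination (1 / 2 * area (φ.symm (Pi.single j 1)) a) * Complex.I_mul_I

theorem k10_hol' (j : Fin 2) (a : ℂ × ℂ) :
    k10 j (fun w => area (φ.symm w) a) = area (φ.symm (Pi.single j 1)) a := by
  rw [k10, φs_single_I, area_smul_left']
  linear_combination (-1 / 2 * area (φ.symm (Pi.single j 1)) a) * Complex.I_mul_I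

/-- the components of `∂̄_j κ` -/
theorem dzb_comp_eq {κ : FL.C2 → ℂ × ℂ} {z : FL.C2} (h : DifferentiableAt ℝ κ z) (j : Fin 2) :
    FL.dzb j (fun y => φ (κ y) 0) z = (FL.dzb j κ z).1 ∧
      FL.dzb j (fun y => φ (κ y) 1) z = (FL.dzb j κ z).2 :=
  ⟨FL.dzb_clm (ContinuousLinearMap.fst ℂ ℂ ℂ) h j, FL.dzb_clm (ContinuousLinearMap.snd ℂ ℂ ℂ) h j⟩

theorem k01_D (j : Fin 2) (a : ℂ × ℂ) (κ : FL.C2 → ℂ × ℂ) (z : FL.C2) :
    k01 j (fun w => area a (fderiv ℝ κ z w)) = area a (FL.dzb j κ z) := by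
  rw [k01, FL.dzb, area_smul_right', area_add_right', area_smul_right']

/-- the types of the two-form `m area(v, w) + μ (area(Dκ v, w) + area(v, Dκ w))` -/
theorem comps_L {B : FL.C2 → FL.C2 → ℂ} {κ : FL.C2 → ℂ × ℂ} {z : FL.C2} {m μ : ℂ}
    (hB : ∀ v w, B v w = m * area (φ.symm v) (φ.symm w) +
      μ * (area (fderiv ℝ κ z v) (φ.symm w) + area (φ.symm v) (fderiv ℝ κ z w))) (i j : Fin 2) :
    c11 B i j = μ * area (φ.symm (Pi.single i 1)) (FL.dzb j κ z) ∧ c02 B = 0 := by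
  have h1 : ∀ v j, k01 j (B v) = μ * area (φ.symm v) (FL.dzb j κ z) := by
    intro v j
    have h2 : k01 j (B v) = m * k01 j (fun w => area (φ.symm v) (φ.symm w)) +
        μ * (k01 j (fun w => area (fderiv ℝ κ z v) (φ.symm w)) +
          k01 j (fun w => area (φ.symm v) (fderiv ℝ κ z w))) := by
      simp only [k01, hB]
      ring
    rw [h2, k01_hol, k01_hol, k01_D]
    ring
  constructor
  · have h3 : c11 B i j = k10 i fun v => μ * area (φ.symm v) (FL.dzb j κ z) := by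
      simp only [c11, Matrix.of_apply, h1]
    have h4 : (k10 i fun v => μ * area (φ.symm v) (FL.dzb j κ z)) =
        μ * k10 i (fun v => area (φ.symm v) (FL.dzb j κ z)) := by
      simp only [k10]
      ring
    rw [h3, h4, k10_hol']
  · have h3 : c02 B = k01 0 fun v => μ * area (φ.symm v) (FL.dzb 1 κ z) := by
      simp only [c02, h1]
    have h4 : (k01 0 fun v => μ * area (φ.symm v) (FL.dzb 1 κ z)) =
        μ * k01 0 (fun v => area (φ.symm v) (FL.dzb 1 κ z)) := by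
      simp only [k01]
      ring
    rw [h3, h4, k01_hol', mul_zero]

end types

/-! ### the derivative of a family of two-forms -/

section fam

variable {X : Type*} [TopologicalSpace X] [ChartedSpace FL.C2 X] [IsManifold 𝓘(ℂ, FL.C2) ω X]
variable {V : Type*} [NormedAddCommGroup V] [NormedSpace ℂ V]

/-- the `(1,0)`-part of the derivative of the family of forms in the direction `u` -/
def dTh (T : V → FL.TwoF X) (t u : V) : FL.TwoF X :=
  (1 / 2 : ℂ) • (dT T t u + (-Complex.I) • dT T t (Complex.I • u))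

theorem val2_dTh {T : V → FL.TwoF X} {N : Set V} (h : SmFam T N) {t : V} (ht : t ∈ N) (u : V)
    (x : X) (v w : FL.C2) : val2 (dTh T t u) x v w = dh (fun s => val2 (T s) x v w) t u := by
  rw [dTh, val2_smul', val2_add', val2_smul', h.val2_dT_apply ht, h.val2_dT_apply ht, dh,
    smul_eq_mul, smul_eq_mul]
  ring

theorem E2_dTh {T : V → FL.TwoF X} {N : Set V} (h : SmFam T N) {t : V} (ht : t ∈ N) (u : V)
    {e : FL.Ch X} (he : e ∈ atlas FL.C2 X) {z : FL.C2} (hz : z ∈ e.target) (v w : FL.C2) :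
    H686.E2 e (dTh T t u) z v w = dh (fun s => H686.E2 e (T s) z v w) t u := by
  obtain ⟨x, hx, rfl⟩ : ∃ x ∈ e.source, e x = z := ⟨e.symm z, e.map_target hz, e.right_inv hz⟩
  have h1 : (fun s => H686.E2 e (T s) (e x) v w) = fun s => val2 (T s) x (Dch e x v) (Dch e x w) := by
    funext s
    rw [H686.E2_apply he _ hx]
  rw [H686.E2_apply he _ hx, val2_dTh h ht, h1]

/-- the `(1,0)`-derivative in the parameter commutes with the derivative in the space variable -/
theorem dh_fderiv {H : V × FL.C2 → ℂ × ℂ} {t : V} {z : FL.C2} (hH : ContDiffAt ℝ ∞ H (t, z))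
    (u : V) (v : FL.C2) : DifferentiableAt ℝ (fun s => fderiv ℝ (fun y => H (s, y)) z v) t ∧
      dh (fun s => fderiv ℝ (fun y => H (s, y)) z v) t u =
        fderiv ℝ (fun y => dh (fun s => H (s, y)) t u) z v := by
  have hm := fun u => mixed (hH.of_le ENat.LEInfty.out : ContDiffAt ℝ 2 H (t, z)) u v
  refine ⟨(hm u).1.differentiableAt, ?_⟩
  have h1 : (fun y => dh (fun s => H (s, y)) t u) =ᶠ[𝓝 z] fun y => (1 / 2 : ℂ) •
      (fderiv ℝ H (t, y) (u, 0) - Complex.I • fderiv ℝ H (t, y) (Complex.I • u, 0)) := by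
    have h0 : ∀ᶠ q in 𝓝 (t, z), ContDiffAt ℝ 2 H q :=
      (hH.of_le ENat.LEInfty.out : ContDiffAt ℝ 2 H (t, z)).eventually (by simp)
    have h0' : ∀ᶠ y in 𝓝 z, ContDiffAt ℝ 2 H (t, y) :=
      (Continuous.tendsto' (f := fun y : FL.C2 => (t, y)) (by fun_prop) z (t, z) rfl).eventually h0
    filter_upwards [h0'] with y hy
    have h2 := (hasFDerivAt_part H (hy.differentiableAt (by norm_num))).fderiv
    rw [dh, h2]
    simp only [ContinuousLinearMap.comp_apply, ContinuousLinearMap.inl_apply]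
  rw [h1.fderiv_eq]
  have h3 : ∀ u, HasFDerivAt (fun y => fderiv ℝ H (t, y) (u, 0))
      (fderiv ℝ (fun y => fderiv ℝ H (t, y) (u, 0)) z) z := fun u =>
    ((contDiffAt_part hH u).differentiableAt (by simp)).hasFDerivAt
  have h4 : HasFDerivAt (fun y => (1 / 2 : ℂ) •
      (fderiv ℝ H (t, y) (u, 0) - Complex.I • fderiv ℝ H (t, y) (Complex.I • u, 0)))
      ((1 / 2 : ℂ) • (fderiv ℝ (fun y => fderiv ℝ H (t, y) (u, 0)) z -
        Complex.I • fderiv ℝ (fun y => fderiv ℝ H (t, y) (Complex.I • u, 0)) z)) z :=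
    ((h3 u).sub ((h3 (Complex.I • u)).const_smul Complex.I)).const_smul (1 / 2 : ℂ)
  rw [h4.fderiv, dh, (hm u).1.fderiv]
  simp only [_root_.smul_apply, _root_.sub_apply]
  rw [(hm u).2, (hm (Complex.I • u)).2]

/-- **the types of the derivative**, from the form of the two-forms in a chart -/
theorem loc_dTh {T : V → FL.TwoF X} {N : Set V} (h : SmFam T N) {t : V} (ht : t ∈ N)
    {e : FL.Ch X} (he : e ∈ atlas FL.C2 X) {z : FL.C2} (hz : z ∈ e.target)
    {H : V × FL.C2 → ℂ × ℂ} (hH : ContDiffAt ℝ ∞ H (t, z))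
    (hH0 : ∀ᶠ y in 𝓝 z, H (t, y) = φ.symm y) {μ : V → ℂ} (hμ : DifferentiableAt ℝ μ t)
    (hform : ∀ᶠ s in 𝓝 t, ∀ v w, H686.E2 e (T s) z v w =
      μ s * area (fderiv ℝ (fun y => H (s, y)) z v) (fderiv ℝ (fun y => H (s, y)) z w)) (u : V) :
    (∀ i j, FL.loc11 e (dTh T t u).f11 z i j =
      μ t * area (φ.symm (Pi.single i 1)) (FL.dzb j (fun y => dh (fun s => H (s, y)) t u) z)) ∧
      FL.loc2 0 e (dTh T t u).f02 z = 0 := by
  set κ : FL.C2 → ℂ × ℂ := fun y => dh (fun s => H (s, y)) t u with hκ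
  have hid : ∀ v, fderiv ℝ (fun y => H (t, y)) z v = φ.symm v := by
    intro v
    have h1 : (fun y => H (t, y)) =ᶠ[𝓝 z] fun y => φ.symm y := hH0
    have h2 : HasFDerivAt (fun y : FL.C2 => φ.symm y)
        ((φ.symm : FL.C2 →L[ℂ] ℂ × ℂ).restrictScalars ℝ) z :=
      ((φ.symm : FL.C2 →L[ℂ] ℂ × ℂ).restrictScalars ℝ).hasFDerivAt
    rw [h1.fderiv_eq, h2.fderiv]
    rfl
  have key : ∀ v w, H686.E2 e (dTh T t u) z v w = dh μ t u * area (φ.symm v) (φ.symm w) +
      μ t * (area (fderiv ℝ κ z v) (φ.symm w) + area (φ.symm v) (fderiv ℝ κ z w)) := by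
    intro v w
    obtain ⟨ha, ha'⟩ := dh_fderiv hH u v
    obtain ⟨hb, hb'⟩ := dh_fderiv hH u w
    rw [E2_dTh h ht u he hz]
    have h1 : (fun s => H686.E2 e (T s) z v w) =ᶠ[𝓝 t] fun s => μ s *
        area (fderiv ℝ (fun y => H (s, y)) z v) (fderiv ℝ (fun y => H (s, y)) z w) := by
      filter_upwards [hform] with s hs
      exact hs v w
    rw [dh_congr h1, dh_area hμ ha hb, ha', hb', hid, hid]
  have hc := c_ev2 (FL.loc0 1 e (dTh T t u).f20 z) (FL.loc11 e (dTh T t u).f11 z)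
    (FL.loc2 0 e (dTh T t u).f02 z)
  refine ⟨fun i j => ?_, ?_⟩
  · have h1 := (comps_L (B := fun v w => H686.E2 e (dTh T t u) z v w) key i j).1
    have h2 : (c11 fun v w => H686.E2 e (dTh T t u) z v w) = FL.loc11 e (dTh T t u).f11 z := hc.2.1
    rw [← h2]
    exact h1
  · have h1 := (comps_L (B := fun v w => H686.E2 e (dTh T t u) z v w) key 0 0).2
    have h2 : (c02 fun v w => H686.E2 e (dTh T t u) z v w) = FL.loc2 0 e (dTh T t u).f02 z := hc.2.2
    rw [← h2]
    exact h1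

end fam

/-! ### smooth trivialisations -/

section triv

variable {V : Type} [NormedAddCommGroup V] [NormedSpace ℂ V] {D : Set V}
  {E : Type} [TopologicalSpace E] [T2Space E] {𝓕 : K3Family V D E} {t₀ : D}

/-- representatives in an arbitrary chart of the fibre over `t₀` are smooth -/
theorem smooth_repF (S : SmTriv 𝓕 t₀) {e : FL.Ch (𝓕.k3 t₀).X} (he : e ∈ atlas FL.C2 (𝓕.k3 t₀).X)
    {z : FL.C2} (hz : z ∈ e.target) {s : V} (hs : s ∈ S.N) {y : E}
    (hy : S.Φ s (e.symm z) ∈ (𝓕.F.triv y).source) :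
    ContDiffAt ℝ ∞ (repF S.Φ e y) (s, z) ∧ ∀ᶠ w in 𝓝 z, ∀ s', repF S.Φ e y (s', w) =
      repF S.Φ (chartAt FL.C2 (e.symm z)) y (s', chartAt FL.C2 (e.symm z) (e.symm w)) := by
  set p := e.symm z with hp
  set e' := chartAt FL.C2 p with he'd
  have he' : e' ∈ atlas FL.C2 (𝓕.k3 t₀).X := chart_mem_atlas FL.C2 p
  have hpe : p ∈ e.source := e.map_target hz
  have hpe' : p ∈ e'.source := mem_chart_source FL.C2 p
  have hez : e p = z := e.right_inv hz
  have h1 : ∀ᶠ w in 𝓝 z, ∀ s', repF S.Φ e y (s', w) = repF S.Φ e' y (s', e' (e.symm w)) := by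
    have h2 := (FL.isOpen_trans e e').mem_nhds (FL.mem_trans hpe hpe')
    rw [hez] at h2
    filter_upwards [h2] with w hw s'
    have h3 : e'.symm (e' (e.symm w)) = e.symm w := e'.left_inv hw.2
    rw [repF, repF, h3]
  refine ⟨?_, h1⟩
  have h2 : repF S.Φ e y =ᶠ[𝓝 (s, z)] fun q => repF S.Φ e' y (q.1, e' (e.symm q.2)) := by
    have h3 : Tendsto (fun q : V × FL.C2 => q.2) (𝓝 (s, z)) (𝓝 z) := continuous_snd.tendsto (s, z)
    filter_upwards [h3.eventually h1] with q hq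
    exact hq q.1
  refine ContDiffAt.congr_of_eventuallyEq ?_ h2
  have h4 : ContDiffAt ℝ ∞ (fun w => e' (e.symm w)) z := by
    have := ((FL.trans_analyticAt he he' hpe hpe').contDiffAt (n := ∞)).restrict_scalars ℝ
    rwa [hez] at this
  have h5 : ContDiffAt ℝ ∞ (fun q : V × FL.C2 => (q.1, e' (e.symm q.2))) (s, z) := by
    refine contDiffAt_fst.prodMk ?_
    exact ContDiffAt.comp (g := fun w => e' (e.symm w)) (f := fun q : V × FL.C2 => q.2) (s, z) h4
      contDiffAt_snd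
  exact ContDiffAt.comp (g := repF S.Φ e' y) (s, z) (S.smooth s hs p y hy) h5

/-- the points over nearby parameters stay in the trivialisation -/
theorem near_source (S : SmTriv 𝓕 t₀) {x : Fib 𝓕.F t₀} {z : FL.C2}
    (hz : z ∈ (fch 𝓕 t₀ x).target) : ∀ᶠ s in 𝓝 (t₀ : V), s ∈ S.N ∧
      S.Φ s ((fch 𝓕 t₀ x).symm z) ∈ (𝓕.F.triv x.1).source := by
  have h1 : ContinuousAt (fun q : V × (𝓕.k3 t₀).X => S.Φ q.1 q.2)
      ((t₀ : V), (fch 𝓕 t₀ x).symm z) :=
    S.cont.continuousAt ((S.isOpen.prod isOpen_univ).mem_nhds ⟨S.mem, mem_univ _⟩)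
  have h2 : ContinuousAt (fun s : V => S.Φ s ((fch 𝓕 t₀ x).symm z)) (t₀ : V) :=
    ContinuousAt.comp (g := fun q : V × (𝓕.k3 t₀).X => S.Φ q.1 q.2)
      (f := fun s : V => (s, (fch 𝓕 t₀ x).symm z)) h1
      (continuousAt_id.prodMk continuousAt_const)
  have h3 : S.Φ t₀ ((fch 𝓕 t₀ x).symm z) ∈ (𝓕.F.triv x.1).source := by
    have h4 : S.Φ t₀ ((fch 𝓕 t₀ x).symm z) =
        Fib.val ((fch 𝓕 t₀ x).symm z : Fib 𝓕.F t₀) := S.Φ₀ _
    rw [h4]
    exact (fch 𝓕 t₀ x).map_target hz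
  have h5 : ∀ᶠ s in 𝓝 (t₀ : V), s ∈ S.N := S.isOpen.mem_nhds S.mem
  exact h5.and (h2.eventually ((𝓕.F.triv x.1).open_source.mem_nhds h3))

/-- the representative in the chart `x` -/
def rp (S : SmTriv 𝓕 t₀) (x : Fib 𝓕.F t₀) : V × FL.C2 → ℂ × ℂ := repF S.Φ (fch 𝓕 t₀ x) x.1

theorem rp_zero (S : SmTriv 𝓕 t₀) {x : Fib 𝓕.F t₀} {z : FL.C2} (hz : z ∈ (fch 𝓕 t₀ x).target) :
    rp S x (t₀, z) = φ.symm z := by
  have h1 : rp S x (t₀, z) = fibChart 𝓕.F t₀ x ((fibChart 𝓕.F t₀ x).symm (φ.symm z)) := by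
    have h4 : S.Φ t₀ ((fch 𝓕 t₀ x).symm z) =
        Fib.val ((fch 𝓕 t₀ x).symm z : Fib 𝓕.F t₀) := S.Φ₀ _
    change (𝓕.F.triv x.1 (S.Φ t₀ ((fch 𝓕 t₀ x).symm z))).2 = _
    rw [h4]
    rfl
  rw [h1]
  exact (fibChart 𝓕.F t₀ x).right_inv hz

theorem rp_smooth (S : SmTriv 𝓕 t₀) {x : Fib 𝓕.F t₀} {z : FL.C2} (hz : z ∈ (fch 𝓕 t₀ x).target) :
    ContDiffAt ℝ ∞ (rp S x) ((t₀ : V), z) :=
  (smooth_repF S (fch_mem 𝓕 t₀ x) hz S.mem (near_source S hz).self_of_nhds.2).1

/-- the smooth lift of the vector `u` given by a smooth trivialisation -/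
def lift (S : SmTriv 𝓕 t₀) (u : V) (hD : IsOpen D) : SmLift 𝓕.F t₀ u where
  k x z := φ (dh (fun s => rp S x (s, z)) (t₀ : V) u)
  smooth := by
    intro x z hz
    have h1 : (fun y => dh (fun s => rp S x (s, y)) (t₀ : V) u) =ᶠ[𝓝 z] fun y => (1 / 2 : ℂ) •
        (fderiv ℝ (rp S x) ((t₀ : V), y) (u, 0) -
          Complex.I • fderiv ℝ (rp S x) ((t₀ : V), y) (Complex.I • u, 0)) := by
      have hz' : z ∈ (fch 𝓕 t₀ x).target := hz
      filter_upwards [(fch 𝓕 t₀ x).open_target.mem_nhds hz'] with y hy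
      have h2 := (hasFDerivAt_part (rp S x) ((rp_smooth S hy).differentiableAt (by simp))).fderiv
      rw [dh, h2]
      simp only [ContinuousLinearMap.comp_apply, ContinuousLinearMap.inl_apply]
    have h3 : ContDiffAt ℝ ∞ (fun y => dh (fun s => rp S x (s, y)) (t₀ : V) u) z := by
      refine ContDiffAt.congr_of_eventuallyEq ?_ h1
      exact ((contDiffAt_part (rp_smooth S hz) u).sub
        ((contDiffAt_part (rp_smooth S hz) (Complex.I • u)).const_smul Complex.I)).const_smul _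
    exact ContDiffAt.comp (g := fun w => φ w) z
      ((φ : ℂ × ℂ →L[ℂ] FL.C2).restrictScalars ℝ).contDiff.contDiffAt h3
  law := by
    intro x x' w h
    obtain ⟨hz, hp, h3⟩ := fch_ov h
    rw [φ.symm_apply_apply, φ.symm_apply_apply]
    -- the representative in the chart `x'`
    have h4 : (fch 𝓕 t₀ x').symm (φ (trn 𝓕.F x.1 x'.1 (t₀, w))) = (fch 𝓕 t₀ x).symm (φ w) := by
      rw [← h3]
      exact (fch 𝓕 t₀ x').left_inv hp
    have h5 : (fun s => rp S x' (s, φ (trn 𝓕.F x.1 x'.1 (t₀, w)))) =ᶠ[𝓝 (t₀ : V)]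
        fun s => trn 𝓕.F x.1 x'.1 (s, rp S x (s, φ w)) := by
      filter_upwards [near_source S hz] with s hs
      obtain ⟨hs, hs1⟩ := hs
      have h6 : 𝓕.F.triv x.1 (S.Φ s ((fch 𝓕 t₀ x).symm (φ w))) =
          ((⟨s, S.sub hs⟩ : D), rp S x (s, φ w)) := by
        rw [𝓕.F.mk_eq x.1 hs1]
        refine Prod.ext (Subtype.ext ?_) rfl
        exact S.p_Φ s hs _
      have h7 : (𝓕.F.triv x.1).symm ((⟨s, S.sub hs⟩ : D), rp S x (s, φ w)) =
          S.Φ s ((fch 𝓕 t₀ x).symm (φ w)) := by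
        rw [← h6]
        exact (𝓕.F.triv x.1).left_inv hs1
      have h8 := trn_apply 𝓕.F x.1 x'.1 (⟨s, S.sub hs⟩ : D) (rp S x (s, φ w))
      rw [h7] at h8
      rw [rp, repF, h4]
      exact h8.symm
    have h9 : rp S x ((t₀ : V), φ w) = w := by
      rw [rp_zero S hz, φ.symm_apply_apply]
    have h10 : DifferentiableAt ℝ (fun s => rp S x (s, φ w)) (t₀ : V) :=
      (hasFDerivAt_part (rp S x) ((rp_smooth S hz).differentiableAt (by simp))).differentiableAt
    have h11 : DifferentiableAt ℂ (trn 𝓕.F x.1 x'.1) ((t₀ : V), rp S x ((t₀ : V), φ w)) := by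
      rw [h9]
      exact (𝓕.hol x.1 x'.1 t₀ w h.1 h.2).differentiableAt
    have h12 := dh_comp (G := trn 𝓕.F x.1 x'.1) (f := fun s => rp S x (s, φ w)) h10 h11 u
    rw [dh_congr h5, h12, h9]

/-- the form of the family of two-forms in the charts of the fibre -/
theorem E2_of_val2 (S : SmTriv 𝓕 t₀) {T : V → FL.TwoF (𝓕.k3 t₀).X}
    (hval : ∀ s ∈ S.N, ∀ (p : (𝓕.k3 t₀).X) (y : E), S.Φ s p ∈ (𝓕.F.triv y).source →
      ∀ v w : FL.C2, val2 (T s) p v w =
        𝓕.vol y (s, repF S.Φ (chartAt FL.C2 p) y (s, chartAt FL.C2 p p)) *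
          area (fderiv ℝ (fun z => repF S.Φ (chartAt FL.C2 p) y (s, z)) (chartAt FL.C2 p p) v)
            (fderiv ℝ (fun z => repF S.Φ (chartAt FL.C2 p) y (s, z)) (chartAt FL.C2 p p) w))
    {x : Fib 𝓕.F t₀} {z : FL.C2} (hz : z ∈ (fch 𝓕 t₀ x).target) :
    ∀ᶠ s in 𝓝 (t₀ : V), ∀ v w, H686.E2 (fch 𝓕 t₀ x) (T s) z v w =
      𝓕.vol x.1 (s, rp S x (s, z)) *
        area (fderiv ℝ (fun y => rp S x (s, y)) z v) (fderiv ℝ (fun y => rp S x (s, y)) z w) := by
  set e := fch 𝓕 t₀ x with he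
  have hea := fch_mem 𝓕 t₀ x
  filter_upwards [near_source S hz] with s hs v w
  obtain ⟨hsN, hs1⟩ := hs
  set p := e.symm z with hp
  set e' := chartAt FL.C2 p with he'd
  have he' : e' ∈ atlas FL.C2 (𝓕.k3 t₀).X := chart_mem_atlas FL.C2 p
  have hpe : p ∈ e.source := e.map_target hz
  have hpe' : p ∈ e'.source := mem_chart_source FL.C2 p
  have hez : e p = z := e.right_inv hz
  have h1 := (smooth_repF S hea hz hsN hs1).2
  have h2 : repF S.Φ e' x.1 (s, e' p) = rp S x (s, z) := by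
    have := (h1.self_of_nhds s).symm
    exact this
  have h3 : ∀ v, fderiv ℝ (fun y => rp S x (s, y)) z v =
      fderiv ℝ (fun z => repF S.Φ e' x.1 (s, z)) (e' p) (Dch e p v) := by
    intro v
    have h4 : (fun y => rp S x (s, y)) =ᶠ[𝓝 z] fun y => repF S.Φ e' x.1 (s, e' (e.symm y)) := by
      filter_upwards [h1] with y hy
      exact hy s
    have h5 : HasFDerivAt (fun y => e' (e.symm y)) (Dch e p) z := by
      have h6 := ((FL.trans_differentiableAt hea he' hpe hpe').restrictScalars ℝ).hasFDerivAt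
      rw [Dch, ← he'd]
      rw [hez] at h6 ⊢
      exact h6
    have h6 : HasFDerivAt (fun z => repF S.Φ e' x.1 (s, z))
        (fderiv ℝ (fun z => repF S.Φ e' x.1 (s, z)) (e' p)) ((fun y => e' (e.symm y)) z) := by
      have h7 := S.smooth s hsN p x.1 hs1
      have h8 : ContDiffAt ℝ ∞ (fun z => repF S.Φ e' x.1 (s, z)) (e' p) :=
        ContDiffAt.comp (g := repF S.Φ e' x.1) (f := fun z => (s, z)) (e' p) h7
          (contDiffAt_const.prodMk contDiffAt_id)
      exact (h8.differentiableAt (by simp)).hasFDerivAt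
    have h7 := h6.comp z h5
    have h8 : fderiv ℝ (fun y => repF S.Φ e' x.1 (s, e' (e.symm y))) z = _ := h7.fderiv
    rw [h4.fderiv_eq, h8]
    rfl
  have h4 := H686.E2_apply hea (T s) hpe v w
  rw [hez] at h4
  rw [h4, hval s hsN p x.1 hs1, h2, h3, h3]

/-- **The Kodaira-Spencer class vanishes if the derivative of the class of the two-form is
proportional to it.** -/
theorem infTrivial_of_dTh (hD : IsOpen D) (S : SmTriv 𝓕 t₀) {T : V → FL.TwoF (𝓕.k3 t₀).X}
    (hT : SmFam T S.N)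
    (hval : ∀ s ∈ S.N, ∀ (p : (𝓕.k3 t₀).X) (y : E), S.Φ s p ∈ (𝓕.F.triv y).source →
      ∀ v w : FL.C2, val2 (T s) p v w =
        𝓕.vol y (s, repF S.Φ (chartAt FL.C2 p) y (s, chartAt FL.C2 p p)) *
          area (fderiv ℝ (fun z => repF S.Φ (chartAt FL.C2 p) y (s, z)) (chartAt FL.C2 p p) v)
            (fderiv ℝ (fun z => repF S.Φ (chartAt FL.C2 p) y (s, z)) (chartAt FL.C2 p p) w))
    (u : V) (a : ℂ) {A : FL.OneF (𝓕.k3 t₀).X} (hA : A.Smooth)
    (h : dTh T (t₀ : V) u - a • OmF (𝓕.k3 t₀) = A.d) : InfTrivial 𝓕.F t₀ u := by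
  have key : ∀ (x : Fib 𝓕.F t₀) (z : FL.C2), z ∈ (fch 𝓕 t₀ x).target →
      (∀ i j, FL.loc11 (fch 𝓕 t₀ x) (dTh T (t₀ : V) u).f11 z i j =
        𝓕.vol x.1 (t₀, rp S x (t₀, z)) * area (φ.symm (Pi.single i 1))
          (FL.dzb j (fun y => dh (fun s => rp S x (s, y)) (t₀ : V) u) z)) ∧
      FL.loc2 0 (fch 𝓕 t₀ x) (dTh T (t₀ : V) u).f02 z = 0 := by
    intro x z hz
    have h1 : ∀ᶠ y in 𝓝 z, rp S x (t₀, y) = φ.symm y := by
      filter_upwards [(fch 𝓕 t₀ x).open_target.mem_nhds hz] with y hy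
      exact rp_zero S hy
    have h2 : DifferentiableAt ℝ (fun s => 𝓕.vol x.1 (s, rp S x (s, z))) (t₀ : V) := by
      have h3 : DifferentiableAt ℝ (fun s => rp S x (s, z)) (t₀ : V) :=
        (hasFDerivAt_part (rp S x) ((rp_smooth S hz).differentiableAt (by simp))).differentiableAt
      have h4 : DifferentiableAt ℝ (𝓕.vol x.1) ((fun s => (s, rp S x (s, z))) (t₀ : V)) := by
        change DifferentiableAt ℝ (𝓕.vol x.1) ((t₀ : V), rp S x (t₀, z))
        rw [rp_zero S hz]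
        exact (𝓕.vol_hol x.1 t₀ (φ.symm z) hz).1.differentiableAt.restrictScalars ℝ
      exact h4.comp (t₀ : V) (differentiableAt_id.prodMk h3)
    exact loc_dTh hT S.mem (fch_mem 𝓕 t₀ x) hz (rp_smooth S hz) h1 h2 (E2_of_val2 S hval hz) u
  have hf02 : (dTh T (t₀ : V) u).f02 = 0 := by
    funext x
    have h1 := (key x (fch 𝓕 t₀ x x) ((fch 𝓕 t₀ x).map_source (mem_chart_source FL.C2 x))).2
    have h2 := FL.loc2_chartAt 0 (dTh T (t₀ : V) u).f02 x
    exact h2.symm.trans h1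
  have hAd2 : A.d.f02 = 0 := by
    rw [← h]
    funext x
    change (dTh T (t₀ : V) u).f02 x - a • (0 : ℂ) = 0
    rw [hf02]
    simp
  have hAd1 : A.d.f11 = (dTh T (t₀ : V) u).f11 := by
    rw [← h]
    funext x
    change (dTh T (t₀ : V) u).f11 x - a • (0 : Matrix (Fin 2) (Fin 2) ℂ) = _
    rw [smul_zero, sub_zero]
  refine infTrivial_of_exact hD 𝓕 t₀ u (lift S u hD) A hA hAd2 ?_
  intro x z hz i j
  rw [hAd1, (key x z hz).1 i j, rp_zero S hz]
  congr 1
  have h1 : DifferentiableAt ℝ (fun y => dh (fun s => rp S x (s, y)) (t₀ : V) u) z := by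
    have h2 := ((lift S u hD).smooth x z hz).differentiableAt (by simp)
    have h3 : DifferentiableAt ℝ (fun y => φ.symm ((lift S u hD).k x y)) z :=
      (((φ.symm : FL.C2 →L[ℂ] ℂ × ℂ).restrictScalars ℝ).differentiableAt).comp z h2
    refine h3.congr_of_eventuallyEq (Eventually.of_forall fun y => ?_)
    change _ = φ.symm (φ (dh (fun s => rp S x (s, y)) (t₀ : V) u))
    rw [φ.symm_apply_apply]
  obtain ⟨h2, h3⟩ := dzb_comp_eq h1 j
  change _ = (if i = 0 then FL.dzb j (fun y => φ (dh (fun s => rp S x (s, y)) (t₀ : V) u) 1) z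
    else 0) - (if i = 1 then FL.dzb j (fun y => φ (dh (fun s => rp S x (s, y)) (t₀ : V) u) 0) z
    else 0)
  rw [h2, h3]
  fin_cases i
  · simp [area]
  · simp [area]

end triv

end Vale.Agent.P290.H867
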