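import Vale.Agent.P290.H722.KSGlue
import Vale.Agent.P290.H867.P3
import Vale.Agent.P290.H445.Mul

/-!
# P290, F4 (helper867): the derivative of the class of the two-form

`exact_of_infTrivial` : if the Kodaira-Spencer class of the family at `t₀` in the direction `v`
vanishes, then the derivative of the transported two-forms in the direction `v` is cohomologous to a
multiple of the two-form of the fibre over `t₀`.
-/

set_option linter.unusedVariables false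
set_option linter.unusedSectionVars false

open scoped Manifold ContDiff ComplexConjugate Topology
open Set Filter

noncomputable section

namespace Vale.Agent.P290.H867

open Vale.Agent.P267 Vale.Agent.P267.RR Vale.Agent.P267.H332 Vale.Agent.P290.All Vale.Agent.P290.H805
  Vale.Agent.P290.H95 Vale.Agent.P290.H445 Vale.Agent.P290.H686 Vale.Agent.P290.H722

/-! ### two-forms -/

section two

variable {X : Type*} [TopologicalSpace X] [ChartedSpace FL.C2 X] [IsManifold 𝓘(ℂ, FL.C2) ω X]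

theorem d_smooth' {A : FL.OneF X} (hA : A.Smooth) : A.d.Smooth where
  s20 := H469.reg_del10 hA.s10
  s11 := by
    have h1 := H469.reg_del1 hA.s01
    have h2 := H469.reg_dbar10 hA.s10
    intro e he i j
    refine ((h1 e he i j).add (h2 e he i j)).congr fun z _ => ?_
    simp only [FL.loc11, FL.OneF.d, Pi.add_apply, Matrix.add_apply, Matrix.of_apply, smul_eq_mul,
      Fin.sum_univ_two]
    ring
  s02 := H469.reg_dbar1 hA.s01

theorem d_closed' {A : FL.OneF X} (hA : A.Smooth) : A.d.Closed := by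
  have h := H469.D2_D1 (X := X) (⟨A.f10, hA.s10⟩, ⟨A.f01, hA.s01⟩)
  have h1 : A.d.d21 = 0 := by
    have h2 := congrArg (fun p => (p.1 : X → Fin 2 → ℂ)) h
    exact h2
  have h3 : A.d.d12 = 0 := by
    have h2 := congrArg (fun p => (p.2 : X → Fin 2 → ℂ)) h
    rw [H469.d12_eq]
    exact h2
  exact ⟨fun x j => by rw [h1]; rfl, fun x i => by rw [h3]; rfl⟩

end two

/-- a closed form of type `(2,0)` on a K3 surface is a multiple of the holomorphic two-form -/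
theorem eq_smul_OmF (Z : All.K3) {F : FL.TwoF Z.X} (hF : F ∈ HC Z.X) (h11 : ∀ x, F.f11 x = 0)
    (h02 : ∀ x, F.f02 x = 0) : ∃ a : ℂ, F = a • H445.OmF Z := by
  have hc := (H342.mem_HC_iff.1 hF).2
  have hs := (H342.mem_HC_iff.1 hF).1
  have hl : ∀ (x : Z.X) (i j : Fin 2), (fun z => FL.loc11 (chartAt FL.C2 x) F.f11 z i j) =
      fun _ => 0 := by
    intro x i j
    funext z
    simp [FL.loc11, h11]
  have hd : ∀ x i, FL.dbar0 1 F.f20 x i = 0 := by
    intro x i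
    have h1 := hc.1 x i
    rw [FL.TwoF.d21, hl, hl] at h1
    have h2 : ∀ j, FL.dz j (fun _ : FL.C2 => (0 : ℂ)) (chartAt FL.C2 x x) = 0 := by
      intro j
      simp [FL.dz]
    rw [h2, h2, sub_zero, add_zero] at h1
    exact h1
  obtain ⟨a, ha⟩ := holOn_one Z (holOn_of_dbar hs.s20 hd)
  refine ⟨a, ?_⟩
  refine FL.TwoF.ext ?_ ?_ ?_
  · funext x
    exact ha x
  · funext x
    rw [h11]
    change (0 : Matrix (Fin 2) (Fin 2) ℂ) = a • (0 : Matrix (Fin 2) (Fin 2) ℂ)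
    rw [smul_zero]
  · funext x
    rw [h02]
    change (0 : ℂ) = a • (0 : ℂ)
    rw [smul_zero]

variable {V : Type} [NormedAddCommGroup V] [NormedSpace ℂ V] {D : Set V}
  {E : Type} [TopologicalSpace E] [T2Space E] {𝓕 : K3Family V D E} {t₀ : D}

/-- the types of the derivative of the two-forms of a smooth trivialisation -/
theorem types_dTh (S : SmTriv 𝓕 t₀) (u : V) (x : Fib 𝓕.F t₀) (z : FL.C2)
    (hz : z ∈ (fch 𝓕 t₀ x).target) :
    (∀ i j, FL.loc11 (fch 𝓕 t₀ x) (dTh S.T (t₀ : V) u).f11 z i j =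
      𝓕.vol x.1 (t₀, φ.symm z) * area (φ.symm (Pi.single i 1))
        (FL.dzb j (fun y => dh (fun s => rp S x (s, y)) (t₀ : V) u) z)) ∧
      FL.loc2 0 (fch 𝓕 t₀ x) (dTh S.T (t₀ : V) u).f02 z = 0 := by
  have h1 : ∀ᶠ y in 𝓝 z, rp S x (t₀, y) = φ.symm y := by
    filter_upwards [(fch 𝓕 t₀ x).open_target.mem_nhds hz] with y hy
    exact rp_zero S hy
  have h2 : DifferentiableAt ℝ (fun s => 𝓕.vol x.1 (s, rp S x (s, z))) (t₀ : V) := by
    have h3 : DifferentiableAt ℝ (fun s => rp S x (s, z)) (t₀ : V) :=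
      (hasFDerivAt_part (rp S x) ((rp_smooth S hz).differentiableAt (by simp))).differentiableAt
    have h4 : DifferentiableAt ℝ (𝓕.vol x.1) ((fun s => (s, rp S x (s, z))) (t₀ : V)) := by
      change DifferentiableAt ℝ (𝓕.vol x.1) ((t₀ : V), rp S x (t₀, z))
      rw [rp_zero S hz]
      exact (𝓕.vol_hol x.1 t₀ (φ.symm z) hz).1.differentiableAt.restrictScalars ℝ
    exact h4.comp (t₀ : V) (differentiableAt_id.prodMk h3)
  have h3 := loc_dTh S.smFam S.mem (fch_mem 𝓕 t₀ x) hz (rp_smooth S hz) h1 h2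
    (E2_of_val2 S (fun s hs p y hy v w => S.val2_T hs p y hy v w) hz) u
  rw [rp_zero S hz] at h3
  exact h3

/-- the difference of the smooth lift and a holomorphic lift -/
def etaL (S : SmTriv 𝓕 t₀) (hD : IsOpen D) (v : V) (θ : E → All.C2 → All.C2) (x : Fib 𝓕.F t₀)
    (z : FL.C2) : FL.C2 := (lift S v hD).k x z - φ (θ x.1 (φ.symm z))

/-- the coefficients of the contraction of the two-form with the difference of the lifts -/
def CL (S : SmTriv 𝓕 t₀) (hD : IsOpen D) (v : V) (θ : E → All.C2 → All.C2) (x : Fib 𝓕.F t₀)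
    (z : FL.C2) : Fin 2 → ℂ :=
  ![-(𝓕.vol x.1 (t₀, φ.symm z) * etaL S hD v θ x z 1), 𝓕.vol x.1 (t₀, φ.symm z) * etaL S hD v θ x z 0]

/-- the contraction as a `(1,0)`-form -/
def ctL (S : SmTriv 𝓕 t₀) (hD : IsOpen D) (v : V) (θ : E → All.C2 → All.C2) :
    (𝓕.k3 t₀).X → Fin 2 → ℂ :=
  fun p => CL S hD v θ p (fch 𝓕 t₀ p p)

section main

variable {S : SmTriv 𝓕 t₀} {hD : IsOpen D} {v : V} {θ : E → All.C2 → All.C2}

theorem etaL_law (hθ : ∀ x x' w, (t₀, w) ∈ (𝓕.F.triv x).target →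
      (𝓕.F.triv x).symm (t₀, w) ∈ (𝓕.F.triv x').source →
      fderiv ℂ (trn 𝓕.F x x') (t₀, w) (v, θ x w) = θ x' (trn 𝓕.F x x' (t₀, w)))
    {x x' : Fib 𝓕.F t₀} {w : All.C2} (h : Ov 𝓕.F x.1 x'.1 t₀ w) :
    (FL.jacM (fch 𝓕 t₀ x) (fch 𝓕 t₀ x') ((fch 𝓕 t₀ x).symm (φ w))).mulVec
      (etaL S hD v θ x (φ w)) = etaL S hD v θ x' (φ (trn 𝓕.F x.1 x'.1 (t₀, w))) := by
  have h1 := (lift S v hD).law x x' w h
  have h2 := hθ x.1 x'.1 w h.1 h.2
  rw [jacM_trn 𝓕 h, etaL, etaL, map_sub, φ.symm_apply_apply, φ.symm_apply_apply, φ.symm_apply_apply]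
  have h3 : ((0 : V), φ.symm ((lift S v hD).k x (φ w)) - θ x.1 w) =
      (v, φ.symm ((lift S v hD).k x (φ w))) - (v, θ x.1 w) :=
    Prod.ext (sub_self v).symm rfl
  rw [h3, map_sub, h1, h2, map_sub, φ.apply_symm_apply]

theorem CL_law (hθ : ∀ x x' w, (t₀, w) ∈ (𝓕.F.triv x).target →
      (𝓕.F.triv x).symm (t₀, w) ∈ (𝓕.F.triv x').source →
      fderiv ℂ (trn 𝓕.F x x') (t₀, w) (v, θ x w) = θ x' (trn 𝓕.F x x' (t₀, w)))
    {x x' : Fib 𝓕.F t₀} {w : All.C2} (h : Ov 𝓕.F x.1 x'.1 t₀ w) (i : Fin 2) :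
    CL S hD v θ x (φ w) i = ∑ q,
      FL.jacM (fch 𝓕 t₀ x) (fch 𝓕 t₀ x') ((fch 𝓕 t₀ x).symm (φ w)) q i *
        CL S hD v θ x' (φ (trn 𝓕.F x.1 x'.1 (t₀, w))) q := by
  have hJ := etaL_law (S := S) (hD := hD) hθ h
  have hdet := jacM_det_trn 𝓕 h
  set J := FL.jacM (fch 𝓕 t₀ x) (fch 𝓕 t₀ x') ((fch 𝓕 t₀ x).symm (φ w)) with hJd
  have hvol := 𝓕.vol_law x.1 x'.1 t₀ w h.1 h.2
  rw [← hdet, Matrix.det_fin_two] at hvol
  have h0 := congrFun hJ 0
  have h1 := congrFun hJ 1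
  rw [Matrix.mulVec, dotProduct, Fin.sum_univ_two] at h0 h1
  rw [Fin.sum_univ_two]
  fin_cases i
  · simp only [CL, Matrix.cons_val_zero, Matrix.cons_val_one, Fin.zero_eta, φ.symm_apply_apply]
    rw [← h0, ← h1, hvol]
    ring
  · simp only [CL, Matrix.cons_val_zero, Matrix.cons_val_one, Fin.mk_one, φ.symm_apply_apply]
    rw [← h0, ← h1, hvol]
    ring

theorem loc10_ctL (hθ : ∀ x x' w, (t₀, w) ∈ (𝓕.F.triv x).target →
      (𝓕.F.triv x).symm (t₀, w) ∈ (𝓕.F.triv x').source →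
      fderiv ℂ (trn 𝓕.F x x') (t₀, w) (v, θ x w) = θ x' (trn 𝓕.F x x' (t₀, w)))
    (x : Fib 𝓕.F t₀) {z : FL.C2} (hz : z ∈ (fch 𝓕 t₀ x).target) (i : Fin 2) :
    FL.loc10 (fch 𝓕 t₀ x) (ctL S hD v θ) z i = CL S hD v θ x z i := by
  set p : Fib 𝓕.F t₀ := (fch 𝓕 t₀ x).symm z with hp
  have hov : Ov 𝓕.F x.1 p.1 t₀ (φ.symm z) := by
    refine ov_fib hz ?_
    change p ∈ (fibChart 𝓕.F t₀ p).source
    exact 𝓕.F.mem p.1
  have h1 := CL_law (S := S) (hD := hD) hθ hov i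
  rw [φ.apply_symm_apply] at h1
  rw [h1]
  have h2 : φ (trn 𝓕.F x.1 p.1 (t₀, φ.symm z)) = fch 𝓕 t₀ p p := by
    rw [← (fch_ov hov).2.2, φ.apply_symm_apply]
  rw [h2]
  rfl

theorem smooth_vol (x : Fib 𝓕.F t₀) {z : FL.C2} (hz : z ∈ (fch 𝓕 t₀ x).target) :
    AnalyticAt ℂ (fun z : FL.C2 => 𝓕.vol x.1 ((t₀ : V), φ.symm z)) z :=
  AnalyticAt.fun_comp (f := fun z : FL.C2 => ((t₀ : V), φ.symm z))
    (𝓕.vol_hol x.1 t₀ (φ.symm z) hz).1
    (analyticAt_const.prod (φ.symm.toContinuousLinearMap.analyticAt z))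

theorem analytic_theta (ha : ∀ x w, (t₀, w) ∈ (𝓕.F.triv x).target → AnalyticAt ℂ (θ x) w)
    (x : Fib 𝓕.F t₀) {z : FL.C2} (hz : z ∈ (fch 𝓕 t₀ x).target) :
    AnalyticAt ℂ (fun z : FL.C2 => φ (θ x.1 (φ.symm z))) z := by
  have h1 : AnalyticAt ℂ (fun z : FL.C2 => θ x.1 (φ.symm z)) z :=
    AnalyticAt.fun_comp (f := fun z : FL.C2 => φ.symm z) (ha x.1 (φ.symm z) hz)
      (φ.symm.toContinuousLinearMap.analyticAt z)
  exact (φ.toContinuousLinearMap.analyticAt _).comp h1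

theorem smooth_etaL (ha : ∀ x w, (t₀, w) ∈ (𝓕.F.triv x).target → AnalyticAt ℂ (θ x) w)
    (x : Fib 𝓕.F t₀) {z : FL.C2} (hz : z ∈ (fch 𝓕 t₀ x).target) :
    ContDiffAt ℝ ∞ (etaL S hD v θ x) z :=
  ((lift S v hD).smooth x z hz).sub
    (((analytic_theta ha x hz).contDiffAt (n := ∞)).restrict_scalars ℝ)

theorem smooth_CL (ha : ∀ x w, (t₀, w) ∈ (𝓕.F.triv x).target → AnalyticAt ℂ (θ x) w)
    (x : Fib 𝓕.F t₀) {z : FL.C2} (hz : z ∈ (fch 𝓕 t₀ x).target) :
    ContDiffAt ℝ ∞ (CL S hD v θ x) z := by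
  have h1 : ContDiffAt ℝ ∞ (fun z : FL.C2 => 𝓕.vol x.1 ((t₀ : V), φ.symm z)) z :=
    ((smooth_vol x hz).contDiffAt (n := ∞)).restrict_scalars ℝ
  have h2 := contDiffAt_pi.1 (smooth_etaL (S := S) (hD := hD) (v := v) ha x hz)
  rw [contDiffAt_pi]
  intro i
  fin_cases i
  · exact (h1.mul (h2 1)).neg
  · exact h1.mul (h2 0)

/-- **Theorem.** If the Kodaira-Spencer class at `t₀` in the direction `v` vanishes, the derivative
of the class of the two-form in the direction `v` is a multiple of the class of the two-form. -/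
theorem exact_of_infTrivial (hD : IsOpen D) (S : SmTriv 𝓕 t₀) {v : V}
    (h : InfTrivial 𝓕.F t₀ v) :
    ∃ a : ℂ, BlockC.ExactTwo (dT S.T (t₀ : V) v - a • H445.OmF (𝓕.k3 t₀)) := by
  obtain ⟨θ, ha, hθ⟩ := h
  have hl := fun (x : Fib 𝓕.F t₀) (z : FL.C2) (hz : z ∈ (fch 𝓕 t₀ x).target) (i : Fin 2) =>
    loc10_ctL (S := S) (hD := hD) (v := v) hθ x hz i
  set c := ctL S hD v θ with hc
  -- regularity
  have hreg : FL.Reg10 ∞ c := by
    rintro _ ⟨_, ⟨x, rfl⟩, rfl⟩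
    intro z hz
    have hz' : z ∈ (fch 𝓕 t₀ x).target := hz
    have h1 := smooth_CL (S := S) (hD := hD) (v := v) ha x hz'
    refine (h1.contDiffWithinAt (s := (fch 𝓕 t₀ x).target)).congr (fun y hy => ?_) ?_
    · funext i
      exact hl x y hy i
    · funext i
      exact hl x z hz' i
  set A : FL.OneF (𝓕.k3 t₀).X := ⟨c, fun _ _ => 0⟩ with hA
  have hAs : A.Smooth := by
    refine ⟨hreg, fun e he => ?_⟩
    have : FL.loc1 0 e (fun (_ : (𝓕.k3 t₀).X) (_ : Fin 2) => (0 : ℂ)) = fun _ _ => 0 := by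
      funext z i
      simp [FL.loc1]
    change ContDiffOn ℝ ∞ (FL.loc1 0 e (fun (_ : (𝓕.k3 t₀).X) (_ : Fin 2) => (0 : ℂ))) _
    rw [this]
    exact contDiffOn_const
  have hmem : A.d ∈ HC (𝓕.k3 t₀).X := H342.mem_HC_iff.2 ⟨d_smooth' hAs, d_closed' hAs⟩
  have hT : dTh S.T (t₀ : V) v ∈ HC (𝓕.k3 t₀).X :=
    Submodule.smul_mem _ _ (Submodule.add_mem _ (S.mem_HC_dT S.mem v)
      (Submodule.smul_mem _ _ (S.mem_HC_dT S.mem (Complex.I • v))))
  have hF : dTh S.T (t₀ : V) v - A.d ∈ HC (𝓕.k3 t₀).X := Submodule.sub_mem _ hT hmem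
  -- types
  have hz0 : ∀ x : Fib 𝓕.F t₀, fch 𝓕 t₀ x x ∈ (fch 𝓕 t₀ x).target := fun x =>
    (fch 𝓕 t₀ x).map_source (𝓕.F.mem x.1)
  have h11 : ∀ x : Fib 𝓕.F t₀, (dTh S.T (t₀ : V) v).f11 x = A.d.f11 x := by
    intro x
    ext i j
    set z := fch 𝓕 t₀ x x with hz
    have h1 := (types_dTh S v x z (hz0 x)).1 i j
    have h2 : FL.loc11 (fch 𝓕 t₀ x) (dTh S.T (t₀ : V) v).f11 z i j =
        (dTh S.T (t₀ : V) v).f11 x i j :=
      FL.loc11_chartAt (X := (𝓕.k3 t₀).X) (dTh S.T (t₀ : V) v).f11 x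
        (FL.jac_chartAt (X := (𝓕.k3 t₀).X) x) i j
    rw [h2] at h1
    rw [h1]
    have h3 : A.d.f11 x i j = - FL.dzb j (fun y => CL S hD v θ x y i) z := by
      have h4 : A.d.f11 x i j = FL.del1 A.f01 x i j + FL.dbar10 c x i j := rfl
      have h5 : FL.del1 A.f01 x i j = 0 := by
        have h6 : (fun z => FL.loc1 0 (fch 𝓕 t₀ x) A.f01 z j) = fun _ => 0 := by
          funext z
          simp [FL.loc1, hA]
        have h7 : FL.del1 A.f01 x i j =
            FL.dz i (fun z => FL.loc1 0 (fch 𝓕 t₀ x) A.f01 z j) z := rfl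
        rw [h7, h6]
        simp [FL.dz]
      have h7 : FL.dbar10 c x i j = - FL.dzb j (fun y => FL.loc10 (fch 𝓕 t₀ x) c y i) z := rfl
      have h8 : (fun y => FL.loc10 (fch 𝓕 t₀ x) c y i) =ᶠ[𝓝 z]
          fun y => CL S hD v θ x y i := by
        filter_upwards [(fch 𝓕 t₀ x).open_target.mem_nhds (hz0 x)] with y hy
        exact hl x y hy i
      rw [h4, h5, h7, zero_add, FL.dzb, FL.dzb, h8.fderiv_eq]
    rw [h3]
    -- the derivative of the coefficients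
    have hv : DifferentiableAt ℂ (fun z : FL.C2 => 𝓕.vol x.1 ((t₀ : V), φ.symm z)) z :=
      (smooth_vol x (hz0 x)).differentiableAt
    have hth : DifferentiableAt ℂ (fun z : FL.C2 => φ (θ x.1 (φ.symm z))) z :=
      (analytic_theta ha x (hz0 x)).differentiableAt
    have hk := ((lift S v hD).smooth x z (hz0 x)).differentiableAt (by simp)
    have hκ : DifferentiableAt ℝ (fun y => dh (fun s => rp S x (s, y)) (t₀ : V) v) z := by
      have h3 : DifferentiableAt ℝ (fun y => φ.symm ((lift S v hD).k x y)) z :=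
        (((φ.symm : FL.C2 →L[ℂ] ℂ × ℂ).restrictScalars ℝ).differentiableAt).comp z hk
      refine h3.congr_of_eventuallyEq (Eventually.of_forall fun y => ?_)
      change _ = φ.symm (φ (dh (fun s => rp S x (s, y)) (t₀ : V) v))
      rw [φ.symm_apply_apply]
    obtain ⟨e0, e1⟩ := dzb_comp_eq hκ j
    have hη : ∀ a, FL.dzb j (fun y => etaL S hD v θ x y a) z =
        FL.dzb j (fun y => (lift S v hD).k x y a) z := by
      intro a
      have h4 : DifferentiableAt ℝ (fun y => (lift S v hD).k x y a) z :=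
        (differentiableAt_pi.1 hk) a
      have h5 : DifferentiableAt ℂ (fun z : FL.C2 => φ (θ x.1 (φ.symm z)) a) z :=
        (differentiableAt_pi.1 hth) a
      have h6 : (fun y => etaL S hD v θ x y a) =
          fun y => (lift S v hD).k x y a - φ (θ x.1 (φ.symm y)) a := rfl
      rw [h6, FL.dzb_sub h4 (h5.restrictScalars ℝ), FL.dzb_of_hol h5, sub_zero]
    have hηd : ∀ a, DifferentiableAt ℝ (fun y => etaL S hD v θ x y a) z := fun a =>
      (differentiableAt_pi.1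
        ((smooth_etaL (S := S) (hD := hD) (v := v) ha x (hz0 x)).differentiableAt (by simp))) a
    have hmul : ∀ a, FL.dzb j (fun y => 𝓕.vol x.1 ((t₀ : V), φ.symm y) * etaL S hD v θ x y a) z =
        𝓕.vol x.1 ((t₀ : V), φ.symm z) * FL.dzb j (fun y => (lift S v hD).k x y a) z := by
      intro a
      rw [FL.dzb_mul (hv.restrictScalars ℝ) (hηd a), FL.dzb_of_hol hv, hη a]
      ring
    have e0' : FL.dzb j (fun y => (lift S v hD).k x y 0) z =
        (FL.dzb j (fun y => dh (fun s => rp S x (s, y)) (t₀ : V) v) z).1 := e0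
    have e1' : FL.dzb j (fun y => (lift S v hD).k x y 1) z =
        (FL.dzb j (fun y => dh (fun s => rp S x (s, y)) (t₀ : V) v) z).2 := e1
    fin_cases i
    · have h4 : (fun y => CL S hD v θ x y 0) =
          fun y => -(𝓕.vol x.1 ((t₀ : V), φ.symm y) * etaL S hD v θ x y 1) := rfl
      have h5 : FL.dzb j (fun y => -(𝓕.vol x.1 ((t₀ : V), φ.symm y) * etaL S hD v θ x y 1)) z =
          - FL.dzb j (fun y => 𝓕.vol x.1 ((t₀ : V), φ.symm y) * etaL S hD v θ x y 1) z := by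
        simp only [FL.dzb, fderiv_fun_neg, _root_.neg_apply]
        simp only [smul_eq_mul]
        ring
      simp only [Fin.zero_eta]
      rw [h4, h5, hmul, e1']
      simp [area]
    · have h4 : (fun y => CL S hD v θ x y 1) =
          fun y => 𝓕.vol x.1 ((t₀ : V), φ.symm y) * etaL S hD v θ x y 0 := rfl
      simp only [Fin.mk_one]
      rw [h4, hmul, e0']
      simp [area]
  have h02 : ∀ x : Fib 𝓕.F t₀, (dTh S.T (t₀ : V) v).f02 x = 0 := by
    intro x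
    have h1 := (types_dTh S v x (fch 𝓕 t₀ x x) (hz0 x)).2
    have h2 := FL.loc2_chartAt 0 (dTh S.T (t₀ : V) v).f02 x
    exact h2.symm.trans h1
  have h02' : ∀ x : (𝓕.k3 t₀).X, A.d.f02 x = 0 := by
    intro x
    have h1 : A.d.f02 x = FL.dbar1 0 A.f01 x := rfl
    have h6 : ∀ j, (fun z => FL.loc1 0 (chartAt FL.C2 x) A.f01 z j) = fun _ => 0 := by
      intro j
      funext z
      simp [FL.loc1, hA]
    rw [h1, FL.dbar1, h6, h6]
    simp [FL.dzb]
  obtain ⟨a, haF⟩ := eq_smul_OmF (𝓕.k3 t₀) hF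
    (fun x => by
      change (dTh S.T (t₀ : V) v).f11 x - A.d.f11 x = 0
      rw [h11 x, sub_self])
    (fun x => by
      change (dTh S.T (t₀ : V) v).f02 x - A.d.f02 x = 0
      rw [h02 x, h02' x, sub_zero])
  refine ⟨a, ?_⟩
  have h1 : dT S.T (t₀ : V) v - a • H445.OmF (𝓕.k3 t₀) = A.d + dTb S.T (t₀ : V) v := by
    rw [← haF, dTh, dTb]
    module
  rw [h1]
  exact H342.exact_add ⟨A, hAs, rfl⟩ (S.exact_dTb S.mem v)

end main

end Vale.Agent.P290.H867
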