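import Vale.Agent.P290.H867.Rebase
import Vale.Agent.P290.H867.Conv
import Vale.Agent.P290.H470.SmTriv
import Vale.Agent.P267.H994.Exist

/-!
# P290, F4 (helper867): the members with nonzero Kodaira-Spencer class

`dense_ks` : in a holomorphic family of K3 surfaces over a connected base, either the Kodaira-Spencer
classes of all members vanish, or the members with a nonzero Kodaira-Spencer class are dense.
-/

set_option linter.unusedVariables false
set_option linter.unusedSectionVars false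

open scoped Manifold ContDiff ComplexConjugate Topology
open Set Filter

noncomputable section

namespace Vale.Agent.P290.H867

open Vale.Agent.P267 Vale.Agent.P267.RR Vale.Agent.P267.H332 Vale.Agent.P267.BlockC Vale.Agent.P290.All
  Vale.Agent.P290.H805 Vale.Agent.P290.H95 Vale.Agent.P290.H445 Vale.Agent.P290.H686
  Vale.Agent.P290.H722

/-! ### the identity theorem -/

section ident

variable {V : Type*} [NormedAddCommGroup V] [NormedSpace ℂ V]

/-- identity theorem on convex sets, along complex lines -/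
theorem eq_of_near {U : Set V} (hU : Convex ℝ U) (hUo : IsOpen U) {f : V → ℂ}
    (hf : DifferentiableOn ℂ f U) {t₂ : V} (h2 : t₂ ∈ U) {c : ℂ} (h : ∀ᶠ t in 𝓝 t₂, f t = c)
    {t : V} (ht : t ∈ U) : f t = c := by
  set γ : ℂ → V := fun s => t₂ + s • (t - t₂) with hγ
  have hγd : Differentiable ℂ γ := (differentiable_id.smul_const (t - t₂)).const_add t₂
  have h0 : γ 0 = t₂ := by simp [hγ]
  have h1 : γ 1 = t := by simp [hγ]
  set W : Set ℂ := γ ⁻¹' U with hW
  have hWo : IsOpen W := hUo.preimage hγd.continuous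
  have hWc : Convex ℝ W := by
    intro a ha b hb p q hp hq hpq
    have e : γ (p • a + q • b) = p • γ a + q • γ b := by
      have h3 : t₂ = p • t₂ + q • t₂ := by rw [← add_smul, hpq, one_smul]
      have h4 : (p • a + q • b) • (t - t₂) = p • (a • (t - t₂)) + q • (b • (t - t₂)) := by
        rw [add_smul, smul_assoc, smul_assoc]
      change t₂ + (p • a + q • b) • (t - t₂) =
        p • (t₂ + a • (t - t₂)) + q • (t₂ + b • (t - t₂))
      rw [h4, smul_add, smul_add]
      nth_rewrite 1 [h3]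
      abel
    change γ (p • a + q • b) ∈ U
    rw [e]
    exact hU ha hb hp hq hpq
  have hfa : AnalyticOnNhd ℂ (fun s => f (γ s)) W := by
    refine DifferentiableOn.analyticOnNhd ?_ hWo
    exact hf.comp hγd.differentiableOn fun s hs => hs
  have h3 : (fun s => f (γ s)) =ᶠ[𝓝 (0 : ℂ)] fun _ => c := by
    have h4 : Tendsto γ (𝓝 0) (𝓝 t₂) := by
      have := hγd.continuous.tendsto 0
      rwa [h0] at this
    exact h4.eventually h
  have hW0 : (0 : ℂ) ∈ W := by
    change γ 0 ∈ U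
    rw [h0]
    exact h2
  have hW1 : (1 : ℂ) ∈ W := by
    change γ 1 ∈ U
    rw [h1]
    exact ht
  have h4 := hfa.eqOn_of_preconnected_of_eventuallyEq analyticOnNhd_const hWc.isPreconnected hW0 h3
    hW1
  simp only [h1] at h4
  exact h4

/-- if the derivative of a holomorphic function vanishes on a nonempty open subset of a convex open
set, it vanishes -/
theorem fderiv_eq_zero {U : Set V} (hU : Convex ℝ U) (hUo : IsOpen U) {f : V → ℂ}
    (hf : DifferentiableOn ℂ f U) {t₂ : V} (h2 : t₂ ∈ U) (h : ∀ᶠ t in 𝓝 t₂, fderiv ℂ f t = 0)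
    {t : V} (ht : t ∈ U) : fderiv ℂ f t = 0 := by
  obtain ⟨r, hr, hball⟩ := Metric.eventually_nhds_iff_ball.1 (h.and (hUo.mem_nhds h2))
  have hc : ∀ s ∈ Metric.ball t₂ r, f s = f t₂ := by
    intro s hs
    have hpre : IsPreconnected (Metric.ball t₂ r) := (convex_ball t₂ r).isPreconnected
    refine IsOpen.is_const_of_fderiv_eq_zero (𝕜 := ℂ) Metric.isOpen_ball hpre ?_ ?_ hs
      (Metric.mem_ball_self hr)
    · intro y hy
      exact (hf.differentiableAt (hUo.mem_nhds (hball y hy).2)).differentiableWithinAt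
    · intro y hy
      exact (hball y hy).1
  have h3 : ∀ᶠ s in 𝓝 t₂, f s = f t₂ := by
    filter_upwards [Metric.ball_mem_nhds t₂ hr] with s hs
    exact hc s hs
  have h4 : f =ᶠ[𝓝 t] fun _ => f t₂ := by
    filter_upwards [hUo.mem_nhds ht] with s hs
    exact eq_of_near hU hUo hf h2 h3 hs
  rw [h4.fderiv_eq]
  simp

end ident

variable {V : Type} [NormedAddCommGroup V] [NormedSpace ℂ V] {D : Set V}
  {E : Type} [TopologicalSpace E] [T2Space E] {𝓕 : K3Family V D E} {t₀ : D}

/-- at a member with vanishing Kodaira-Spencer class the derivative of the periods is proportional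
to the periods -/
theorem per_of_infTrivial (hD : IsOpen D) (S : SmTriv 𝓕 t₀) {t : V} (ht : t ∈ S.N) {v : V}
    (h : InfTrivial 𝓕.F ⟨t, S.sub ht⟩ v) :
    ∃ a : ℂ, ∀ G ∈ HC (𝓕.k3 t₀).X, pair (dT S.T t v) G = a * pair (S.T t) G := by
  obtain ⟨a, ha⟩ := exact_of_infTrivial hD (rebase S ht) h
  refine ⟨a, fun G hG => ?_⟩
  have h1 := (exact_rebase S ht v a).1 ha
  have h2 := H342.pair_exact intAx h1 hG
  have hm := S.mem_HC_dT ht v
  have hT := S.mem_HC_T ht
  have h3 : dT S.T t v = (dT S.T t v - a • S.T t) + a • S.T t := by abel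
  have h4 : dT S.T t v - a • S.T t ∈ HC (𝓕.k3 t₀).X :=
    Submodule.sub_mem _ hm (Submodule.smul_mem _ _ hT)
  rw [h3, H342.pair_add_left intAx h4.1 (Submodule.smul_mem _ a hT).1 hG.1, h2, zero_add,
    H342.pair_smul_left intAx a hT.1 hG.1]

/-- conversely -/
theorem infTrivial_of_per (hD : IsOpen D) (S : SmTriv 𝓕 t₀) (N : NerveIn (𝓕.k3 t₀).X) {t : V}
    (ht : t ∈ S.N) {v : V} {a : ℂ}
    (h : ∀ G ∈ HC (𝓕.k3 t₀).X, pair (dT S.T t v) G = a * pair (S.T t) G) :
    InfTrivial 𝓕.F ⟨t, S.sub ht⟩ v := by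
  have hm := S.mem_HC_dT ht v
  have hT := S.mem_HC_T ht
  have h4 : dT S.T t v - a • S.T t ∈ HC (𝓕.k3 t₀).X :=
    Submodule.sub_mem _ hm (Submodule.smul_mem _ _ hT)
  refine (rebase S ht).infTrivial hD v a ((exact_rebase S ht v a).2 ?_)
  refine exact_of_periods N (ff _) h4.1 (H342.mem_HC_iff.1 h4).2 fun n => ?_
  have hG : (N.L n).L.curv ∈ HC (𝓕.k3 t₀).X :=
    H342.mem_HC_iff.2 ⟨(N.L n).L.curv_smooth, (N.L n).L.curv_closed⟩
  have h5 : dT S.T t v - a • S.T t = dT S.T t v + (-a) • S.T t := by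
    rw [neg_smul, sub_eq_add_neg]
  rw [h5, H342.pair_add_left intAx hm.1 (Submodule.smul_mem _ (-a) hT).1 hG.1,
    H342.pair_smul_left intAx (-a) hT.1 hG.1, h _ hG]
  ring

/-- the local statement: near every point, triviality propagates -/
theorem local_ks (hD : IsOpen D) (S : SmTriv 𝓕 t₀) (N : NerveIn (𝓕.k3 t₀).X) :
    ∃ W : Set V, IsOpen W ∧ (t₀ : V) ∈ W ∧ W ⊆ D ∧ ∀ t₂ ∈ W,
      (∀ᶠ t in 𝓝 t₂, ∃ ht : t ∈ D, ∀ v, InfTrivial 𝓕.F ⟨t, ht⟩ v) →
      ∀ (t : D), (t : V) ∈ W → ∀ v, InfTrivial 𝓕.F t v := by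
  set B : FL.TwoF (𝓕.k3 t₀).X := (S.T t₀).bar with hB
  have hBm : B ∈ HC (𝓕.k3 t₀).X := H362.bar_mem (S.mem_HC_T S.mem)
  set P₀ : V → ℂ := fun t => pair (S.T t) B with hP₀
  have hP₀d : DifferentiableOn ℂ P₀ S.N := S.differentiableOn_per hBm
  have hP₀0 : P₀ t₀ ≠ 0 := by
    have h1 := SmTriv.pair_OmF_bar_ne (𝓕.k3 t₀)
    rw [H342.pair_comm] at h1
    rw [hP₀, hB]
    simp only
    rw [S.T_t₀]
    exact h1
  have hev : ∀ᶠ t in 𝓝 (t₀ : V), P₀ t ≠ 0 ∧ t ∈ S.N := by
    have h1 : ContinuousAt P₀ t₀ :=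
      (hP₀d.differentiableAt (S.isOpen.mem_nhds S.mem)).continuousAt
    exact (h1.eventually_ne hP₀0).and (S.isOpen.mem_nhds S.mem)
  obtain ⟨r, hr, hball⟩ := Metric.eventually_nhds_iff_ball.1 hev
  refine ⟨Metric.ball (t₀ : V) r, Metric.isOpen_ball, Metric.mem_ball_self hr,
    fun t ht => S.sub (hball t ht).2, ?_⟩
  intro t₂ ht₂ hnear t ht v
  have htN : (t : V) ∈ S.N := (hball t ht).2
  have hP0 : P₀ t ≠ 0 := (hball t ht).1
  -- the logarithmic derivative
  set a : ℂ := pair (dT S.T t v) B / P₀ t with ha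
  refine infTrivial_of_per hD S N htN (a := a) ?_
  intro G hG
  set P : V → ℂ := fun t => pair (S.T t) G with hP
  have hPd : DifferentiableOn ℂ P S.N := S.differentiableOn_per hG
  set R : V → ℂ := fun t => P t * (P₀ t)⁻¹ with hR
  -- the derivative of the quotient
  have hRh : ∀ s ∈ Metric.ball (t₀ : V) r, HasFDerivAt R
      (P s • (-(P₀ s ^ 2)⁻¹ • fderiv ℂ P₀ s) + (P₀ s)⁻¹ • fderiv ℂ P s) s := by
    intro s hs
    have h1 := (hPd.differentiableAt (S.isOpen.mem_nhds (hball s hs).2)).hasFDerivAt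
    have h2 := (hP₀d.differentiableAt (S.isOpen.mem_nhds (hball s hs).2)).hasFDerivAt
    exact h1.mul ((hasDerivAt_inv (hball s hs).1).comp_hasFDerivAt s h2)
  have hRd : DifferentiableOn ℂ R (Metric.ball (t₀ : V) r) := fun s hs =>
    (hRh s hs).differentiableAt.differentiableWithinAt
  have hRf : ∀ s ∈ Metric.ball (t₀ : V) r, ∀ u, fderiv ℂ R s u * P₀ s ^ 2 =
      pair (dT S.T s u) G * P₀ s - P s * pair (dT S.T s u) B := by
    intro s hs u
    have hsN := (hball s hs).2
    have hs0 := (hball s hs).1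
    rw [(hRh s hs).fderiv, ← S.fderiv_per hsN hG u, ← S.fderiv_per hsN hBm u]
    simp only [_root_.smul_apply, _root_.add_apply, smul_eq_mul]
    change (P s * (-(P₀ s ^ 2)⁻¹ * fderiv ℂ P₀ s u) + (P₀ s)⁻¹ * fderiv ℂ P s u) * P₀ s ^ 2 =
      fderiv ℂ P s u * P₀ s - P s * fderiv ℂ P₀ s u
    field_simp
    ring
  have hz : ∀ᶠ s in 𝓝 t₂, fderiv ℂ R s = 0 := by
    filter_upwards [hnear, Metric.isOpen_ball.mem_nhds ht₂] with s hs hsB
    obtain ⟨hsD, hsv⟩ := hs
    refine ContinuousLinearMap.ext fun u => ?_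
    obtain ⟨b, hb⟩ := per_of_infTrivial hD S (hball s hsB).2 (hsv u)
    have h1 := hRf s hsB u
    rw [hb G hG, hb B hBm] at h1
    have h2 : b * pair (S.T s) G * P₀ s - P s * (b * pair (S.T s) B) = 0 := by
      simp only [hP, hP₀]
      ring
    rw [h2] at h1
    exact (mul_eq_zero.1 h1).resolve_right (pow_ne_zero 2 (hball s hsB).1)
  have hzt := fderiv_eq_zero (convex_ball (t₀ : V) r) Metric.isOpen_ball hRd ht₂ hz ht
  have h1 := hRf t ht v
  have h2 : pair (dT S.T t v) G * P₀ t - P t * pair (dT S.T t v) B = 0 := by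
    rw [← h1, hzt, _root_.zero_apply, zero_mul]
  rw [ha]
  have h3 : pair (dT S.T t v) G * P₀ t = P t * pair (dT S.T t v) B := sub_eq_zero.1 h2
  have h4 : pair (dT S.T t v) G = P t * pair (dT S.T t v) B / P₀ t := by
    rw [eq_div_iff hP0]
    exact h3
  rw [h4]
  simp only [hP]
  ring

/-- **Theorem F4.** In a holomorphic family of K3 surfaces over a connected base with at least one
nonzero Kodaira-Spencer class, the members with a nonzero Kodaira-Spencer class are dense. -/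
theorem dense_ks [FiniteDimensional ℂ V] [SecondCountableTopology E] (hD : IsOpen D)
    (hc : IsPreconnected D) (𝓕 : K3Family V D E) (h : ∃ (t : D) (v : V), ¬ InfTrivial 𝓕.F t v) :
    Dense {t : D | ∃ v, ¬ InfTrivial 𝓕.F t v} := by
  have hpc := isPreconnected_iff_preconnectedSpace.1 hc
  set Z : Set D := {t : D | ∀ v, InfTrivial 𝓕.F t v} with hZ
  have hcompl : {t : D | ∃ v, ¬ InfTrivial 𝓕.F t v} = Zᶜ := by
    ext t
    simp [hZ]
  rw [hcompl, ← interior_eq_empty_iff_dense_compl]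
  by_contra hne
  have hne' : (interior Z).Nonempty := nonempty_iff_ne_empty.2 hne
  have hopen : IsOpen (interior Z) := isOpen_interior
  have hclosed : IsClosed (interior Z) := by
    rw [← closure_subset_iff_isClosed]
    intro t₁ ht₁
    obtain ⟨S⟩ := H470.exists_smTriv hD 𝓕 t₁
    obtain ⟨N⟩ := Vale.Agent.P267.H994.exists_nerveIn (𝓕.k3 t₁).X
    obtain ⟨W, hWo, hW1, hWD, hW⟩ := local_ks hD S N
    have hW' : IsOpen (Subtype.val ⁻¹' W : Set D) := hWo.preimage continuous_subtype_val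
    obtain ⟨t₂, ht₂W, ht₂⟩ := mem_closure_iff.1 ht₁ _ hW' hW1
    have hnear : ∀ᶠ t in 𝓝 (t₂ : V), ∃ ht : t ∈ D, ∀ v, InfTrivial 𝓕.F ⟨t, ht⟩ v := by
      have h1 : IsOpen (Subtype.val '' (interior Z) : Set V) :=
        hD.isOpenEmbedding_subtypeVal.isOpenMap _ hopen
      filter_upwards [h1.mem_nhds (mem_image_of_mem Subtype.val ht₂)] with s hs
      obtain ⟨s', hs', rfl⟩ := hs
      exact ⟨s'.2, interior_subset hs'⟩
    refine mem_interior.2 ⟨Subtype.val ⁻¹' W, fun t ht => ?_, hW', hW1⟩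
    exact hW t₂ ht₂W hnear t ht
  have huniv : interior Z = univ := IsClopen.eq_univ ⟨hclosed, hopen⟩ hne'
  obtain ⟨t, v, htv⟩ := h
  have : t ∈ interior Z := by rw [huniv]; exact mem_univ t
  exact htv (interior_subset this v)

end Vale.Agent.P290.H867
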