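import Vale.Agent.P290.H722.Per
import Vale.Agent.P290.H686.LBPull

/-!
# P290, F4 (helper867): change of the base point of a smooth trivialisation

`rebase S ht` : the smooth trivialisation around `t₁ ∈ S.N` obtained from `S`. Its two-forms are the
pull-backs of the two-forms of `S`.
-/

set_option linter.unusedVariables false
set_option linter.unusedSectionVars false

open scoped Manifold ContDiff Topology
open Set Filter

noncomputable section

namespace Vale.Agent.P290.H867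

open Vale.Agent.P267 Vale.Agent.P290.All Vale.Agent.P290.H805 Vale.Agent.P290.H95
  Vale.Agent.P290.H445 Vale.Agent.P290.H686 Vale.Agent.P290.H722

variable {V : Type} [NormedAddCommGroup V] [NormedSpace ℂ V] {D : Set V}
  {E : Type} [TopologicalSpace E] [T2Space E] {𝓕 : K3Family V D E} {t₀ : D}

/-- the smooth trivialisation around another point -/
def rebase (S : SmTriv 𝓕 t₀) {t₁ : V} (ht : t₁ ∈ S.N) : SmTriv 𝓕 ⟨t₁, S.sub ht⟩ where
  N := S.N
  isOpen := S.isOpen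
  mem := ht
  sub := S.sub
  Φ t x := S.Φ t ((S.homeo t₁ ht).symm x)
  p_Φ t h x := S.p_Φ t h _
  Φ₀ x := by
    have h := S.homeo_val t₁ ht ((S.homeo t₁ ht).symm x)
    have e : S.homeo t₁ ht ((S.homeo t₁ ht).symm x) = x :=
      Homeomorph.apply_symm_apply (S.homeo t₁ ht) x
    exact h.symm.trans (congrArg (fun y : Fib 𝓕.F ⟨t₁, S.sub ht⟩ => y.val) e)
  cont := by
    have h : Continuous fun q : V × (𝓕.k3 ⟨t₁, S.sub ht⟩).X => (q.1, (S.homeo t₁ ht).symm q.2) :=
      continuous_fst.prodMk ((S.homeo t₁ ht).symm.continuous.comp continuous_snd)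
    exact S.cont.comp h.continuousOn fun q hq => ⟨hq.1, mem_univ _⟩
  smooth := by
    intro t h x y hy
    set σ : (𝓕.k3 ⟨t₁, S.sub ht⟩).X → (𝓕.k3 t₀).X := fun x => (S.homeo t₁ ht).symm x with hσ
    have hσs : IsSm σ := (S.diffeo t₁ ht).smooth'
    have hx := mem_chart_source FL.C2 x
    have hx' := mem_chart_source FL.C2 (σ x)
    have h1 : ContDiffAt ℝ ∞ (rep σ (chartAt FL.C2 x) (chartAt FL.C2 (σ x))) (chartAt FL.C2 x x) :=
      hσs.2 _ (chart_mem_atlas FL.C2 x) _ (chart_mem_atlas FL.C2 (σ x)) x hx hx'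
    have h2 : ∀ᶠ q : V × FL.C2 in 𝓝 (t, chartAt FL.C2 x x),
        σ ((chartAt FL.C2 x).symm q.2) ∈ (chartAt FL.C2 (σ x)).source := by
      have h3 := rep_eventually hσs.1 (chartAt FL.C2 x) (chartAt FL.C2 (σ x)) hx hx'
      have h4 : Tendsto (fun q : V × FL.C2 => q.2) (𝓝 (t, chartAt FL.C2 x x))
          (𝓝 (chartAt FL.C2 x x)) := continuous_snd.tendsto (t, chartAt FL.C2 x x)
      filter_upwards [h4.eventually h3] with q hq
      exact hq.2
    have h3 : repF (fun t x => S.Φ t (σ x)) (chartAt FL.C2 x) y =ᶠ[𝓝 (t, chartAt FL.C2 x x)]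
        fun q => repF S.Φ (chartAt FL.C2 (σ x)) y
          (q.1, rep σ (chartAt FL.C2 x) (chartAt FL.C2 (σ x)) q.2) := by
      filter_upwards [h2] with q hq
      rw [repF, repF, rep, (chartAt FL.C2 (σ x)).left_inv hq]
    refine ContDiffAt.congr_of_eventuallyEq ?_ h3
    have h4 : ContDiffAt ℝ ∞ (fun q : V × FL.C2 =>
        (q.1, rep σ (chartAt FL.C2 x) (chartAt FL.C2 (σ x)) q.2)) (t, chartAt FL.C2 x x) :=
      contDiffAt_fst.prodMk (ContDiffAt.comp
        (g := rep σ (chartAt FL.C2 x) (chartAt FL.C2 (σ x))) (f := fun q : V × FL.C2 => q.2)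
        (t, chartAt FL.C2 x x) h1 contDiffAt_snd)
    refine ContDiffAt.comp (g := repF S.Φ (chartAt FL.C2 (σ x)) y)
      (f := fun q : V × FL.C2 => (q.1, rep σ (chartAt FL.C2 x) (chartAt FL.C2 (σ x)) q.2))
      (t, chartAt FL.C2 x x) ?_ h4
    simp only [rep_apply σ (chartAt FL.C2 (σ x)) hx]
    exact S.smooth t h (σ x) y hy
  homeo t h := (S.homeo t₁ ht).symm.trans (S.homeo t h)
  homeo_val t h x := S.homeo_val t h _
  diffeo t h := (S.diffeo t₁ ht).symm.trans (S.diffeo t h)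

theorem rebase_N (S : SmTriv 𝓕 t₀) {t₁ : V} (ht : t₁ ∈ S.N) : (rebase S ht).N = S.N := rfl

/-- the two-forms of the new trivialisation -/
theorem rebase_T (S : SmTriv 𝓕 t₀) {t₁ : V} (ht : t₁ ∈ S.N) {t : V} (h : t ∈ S.N) :
    (rebase S ht).T t = pb2 (S.homeo t₁ ht).symm (S.T t) := by
  rw [(rebase S ht).T_eq (t := t) h, S.T_eq h]
  exact pb2_comp (S.diffeo t h).smooth (S.diffeo t₁ ht).smooth' (OmF (𝓕.k3 ⟨t, S.sub h⟩))

/-- the derivatives of the two-forms of the new trivialisation -/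
theorem rebase_dT (S : SmTriv 𝓕 t₀) {t₁ : V} (ht : t₁ ∈ S.N) {t : V} (h : t ∈ S.N) (v : V) :
    dT (rebase S ht).T t v = pb2 (S.homeo t₁ ht).symm (dT S.T t v) := by
  refine val2_inj fun x => ?_
  ext a b
  have h' : t ∈ (rebase S ht).N := h
  rw [(rebase S ht).smFam.val2_dT_apply h', val2_pb2_apply, S.smFam.val2_dT_apply h]
  have h1 : (fun s => val2 ((rebase S ht).T s) x a b) =ᶠ[𝓝 t] fun s =>
      val2 (S.T s) ((S.homeo t₁ ht).symm x) (Df (S.homeo t₁ ht).symm x a)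
        (Df (S.homeo t₁ ht).symm x b) := by
    filter_upwards [S.isOpen.mem_nhds h] with s hs
    rw [rebase_T S ht hs, val2_pb2_apply]
  rw [h1.fderiv_eq]

/-- the two-form of the fibre over the new point -/
theorem T_of_base (S : SmTriv 𝓕 t₀) {t₁ : V} (ht : t₁ ∈ S.N) :
    pb2 (S.homeo t₁ ht).symm (S.T t₁) = OmF (𝓕.k3 ⟨t₁, S.sub ht⟩) := by
  rw [S.T_eq ht]
  exact pb2_symm_pb2 _ (S.diffeo t₁ ht) _

/-- transport of the Kodaira-Spencer condition -/
theorem exact_rebase (S : SmTriv 𝓕 t₀) {t₁ : V} (ht : t₁ ∈ S.N) (v : V) (a : ℂ) :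
    BlockC.ExactTwo (dT (rebase S ht).T t₁ v - a • OmF (𝓕.k3 ⟨t₁, S.sub ht⟩)) ↔
      BlockC.ExactTwo (dT S.T t₁ v - a • S.T t₁) := by
  rw [rebase_dT S ht ht, ← T_of_base S ht, ← pb2_smul, ← pb2_sub]
  exact pb2_exact_iff _ (S.diffeo t₁ ht).symm

end Vale.Agent.P290.H867
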